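import Vale.Agent.P219.CH.CoComplete
import Vale.Agent.P219.CoMain

/-! # Scaling of a metric by a constant, in coordinates -/

open MeasureTheory Matrix
open scoped ENNReal ContDiff

namespace Vale.Agent.P219.Co

/-- The metric `c g`. -/
noncomputable def scale {n : ℕ} (M : RiemMetric n) (c : ℝ) (hc : 0 < c) : RiemMetric n where
  g x := c • M.g x
  smooth := fun i j => by
    have h : ContDiff ℝ ∞ fun x => c * M.g x i j := contDiff_const.mul (M.smooth i j)
    exact h
  pos := fun x => (M.pos x).smul hc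

variable {n : ℕ} {M : RiemMetric n}

theorem scale_g_apply {c : ℝ} (hc : 0 < c) (x : E n) (i j : Fin n) :
    (scale M c hc).g x i j = c * M.g x i j := rfl

theorem scale_g {c : ℝ} (hc : 0 < c) (x : E n) : (scale M c hc).g x = c • M.g x := rfl

theorem scale_pd_const_mul (c : ℝ) (i : Fin n) (f : E n → ℝ) (x : E n) :
    pd i (fun y => c * f y) x = c * pd i f x := by
  unfold pd lineDeriv
  exact deriv_const_mul_field c

theorem scale_det_isUnit (x : E n) : IsUnit (M.g x).det := (M.pos x).det_pos.ne'.isUnit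

theorem scale_inv {c : ℝ} (hc : 0 < c) (x : E n) :
    ((scale M c hc).g x)⁻¹ = c⁻¹ • (M.g x)⁻¹ := by
  rw [scale_g]
  have h := Matrix.inv_smul' (A := M.g x) (Units.mk0 c hc.ne') (scale_det_isUnit x)
  have h2 : ((Units.mk0 c hc.ne') • M.g x) = c • M.g x := rfl
  rw [h2] at h
  rw [h]
  rfl

theorem scale_christoffel {c : ℝ} (hc : 0 < c) (k i j : Fin n) (x : E n) :
    christoffel (scale M c hc) k i j x = christoffel M k i j x := by
  unfold christoffel
  congr 1
  apply Finset.sum_congr rfl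
  intro l _
  rw [scale_inv]
  have h1 : pd i (fun y => (scale M c hc).g y j l) x = c * pd i (fun y => M.g y j l) x :=
    scale_pd_const_mul c i _ x
  have h2 : pd j (fun y => (scale M c hc).g y i l) x = c * pd j (fun y => M.g y i l) x :=
    scale_pd_const_mul c j _ x
  have h3 : pd l (fun y => (scale M c hc).g y i j) x = c * pd l (fun y => M.g y i j) x :=
    scale_pd_const_mul c l _ x
  rw [h1, h2, h3, Matrix.smul_apply, smul_eq_mul]
  field_simp

theorem scale_riem {c : ℝ} (hc : 0 < c) (i j k m : Fin n) (x : E n) :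
    riem (scale M c hc) i j k m x = c * riem M i j k m x := by
  unfold riem
  rw [Finset.mul_sum]
  apply Finset.sum_congr rfl
  intro l _
  have h : ∀ k i j, christoffel (scale M c hc) k i j = christoffel M k i j := fun k i j =>
    funext fun x => scale_christoffel hc k i j x
  simp only [h, scale_g_apply]
  ring

theorem scale_complete {c : ℝ} (hc : 0 < c) (h : GeodesicallyComplete M) :
    GeodesicallyComplete (scale M c hc) := by
  intro x v
  obtain ⟨γ, p, h0, h1, h2⟩ := h x v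
  refine ⟨γ, p, h0, h1, fun t k => ⟨(h2 t k).1, ?_⟩⟩
  simp only [scale_christoffel]
  exact (h2 t k).2

theorem scale_form {c : ℝ} (hc : 0 < c) (x : E n) (u v : Fin n → ℝ) :
    u ⬝ᵥ (scale M c hc).g x *ᵥ v = c * (u ⬝ᵥ M.g x *ᵥ v) := by
  rw [scale_g, Matrix.smul_mulVec, dotProduct_smul, smul_eq_mul]

theorem scale_sec {κ : ℝ} (hκ : κ < 0) (h : SecLE M κ) :
    SecLE (scale M (-κ) (neg_pos.2 hκ)) (-1) := by
  intro x u v
  simp only [scale_form, scale_riem]
  have h1 := mul_le_mul_of_nonneg_left (h x u v) (neg_pos.2 hκ).le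
  have h2 : ∑ i, ∑ j, ∑ k, ∑ m, u i * v j * v k * u m * (-κ * riem M i j k m x) =
      -κ * ∑ i, ∑ j, ∑ k, ∑ m, u i * v j * v k * u m * riem M i j k m x := by
    simp only [Finset.mul_sum]
    refine Finset.sum_congr rfl fun i _ => Finset.sum_congr rfl fun j _ =>
      Finset.sum_congr rfl fun k _ => Finset.sum_congr rfl fun m _ => ?_
    ring
  rw [h2]
  refine h1.trans (le_of_eq ?_)
  ring

theorem scale_volDensity {b : ℝ} (hb : 0 < b) {c : ℝ} (hc : 0 < c) (hbc : c = b ^ 2) (x : E n) :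
    volDensity (scale M c hc) x = b ^ n * volDensity M x := by
  unfold volDensity
  rw [scale_g, Matrix.det_smul, Fintype.card_fin, hbc, ← pow_mul, mul_comm 2 n, pow_mul,
    Real.sqrt_mul (sq_nonneg _), Real.sqrt_sq (pow_nonneg hb.le n)]

theorem scale_gradNorm {b : ℝ} (hb : 0 < b) {c : ℝ} (hc : 0 < c) (hbc : c = b ^ 2)
    (f : E n → ℝ) (x : E n) :
    gradNorm (scale M c hc) f x = b⁻¹ * gradNorm M f x := by
  unfold gradNorm
  rw [scale_inv, Matrix.smul_mulVec, dotProduct_smul, smul_eq_mul, hbc, ← inv_pow,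
    Real.sqrt_mul (sq_nonneg _), Real.sqrt_sq (inv_nonneg.2 hb.le)]

theorem scale_riemVol {b : ℝ} (hb : 0 < b) {c : ℝ} (hc : 0 < c) (hbc : c = b ^ 2)
    (S : Set (E n)) :
    riemVol (scale M c hc) S = ENNReal.ofReal (b ^ n) * riemVol M S := by
  unfold riemVol
  rw [← lintegral_const_mul' _ _ ENNReal.ofReal_ne_top]
  congr 1
  funext x
  rw [scale_volDensity hb hc hbc, ENNReal.ofReal_mul (pow_nonneg hb.le n)]

theorem scale_riemArea (hn : 1 ≤ n) {b : ℝ} (hb : 0 < b) {c : ℝ} (hc : 0 < c) (hbc : c = b ^ 2)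
    (D : SmoothDomain n) :
    riemArea (scale M c hc) D = ENNReal.ofReal (b ^ (n - 1)) * riemArea M D := by
  unfold riemArea
  rw [← lintegral_const_mul' _ _ ENNReal.ofReal_ne_top]
  congr 1
  funext x
  rw [← ENNReal.ofReal_mul (pow_nonneg hb.le (n - 1)), scale_volDensity hb hc hbc,
    scale_gradNorm hb hc hbc]
  congr 1
  obtain ⟨m, rfl⟩ : ∃ m, n = m + 1 := ⟨n - 1, by omega⟩
  rw [Nat.add_sub_cancel, pow_succ]
  field_simp

theorem scale_sn_one (r : ℝ) : sn √(-(-1)) r = Real.sinh r := by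
  unfold sn
  rw [neg_neg, Real.sqrt_one, if_neg one_ne_zero, one_mul, div_one]

theorem scale_sn {κ b : ℝ} (hb : 0 < b) (hκ : -κ = b ^ 2) (r : ℝ) :
    sn √(-κ) r = Real.sinh (b * r) / b := by
  unfold sn
  rw [hκ, Real.sqrt_sq hb.le, if_neg hb.ne']

theorem scale_modelArea {κ b : ℝ} (hb : 0 < b) (hκ : -κ = b ^ 2) (r : ℝ) :
    modelArea n (-1) (b * r) = b ^ (n - 1) * modelArea n κ r := by
  unfold modelArea
  rw [scale_sn_one, scale_sn hb hκ, div_pow]
  field_simp

theorem scale_modelVol (hn : 1 ≤ n) {κ b : ℝ} (hb : 0 < b) (hκ : -κ = b ^ 2) (r : ℝ) :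
    modelVol n (-1) (b * r) = b ^ n * modelVol n κ r := by
  unfold modelVol
  simp only [scale_sn_one, scale_sn hb hκ]
  have h := intervalIntegral.mul_integral_comp_mul_left (a := 0) (b := r)
    (f := fun t => Real.sinh t ^ (n - 1)) b
  rw [mul_zero] at h
  rw [← h]
  obtain ⟨m, rfl⟩ : ∃ m, n = m + 1 := ⟨n - 1, by omega⟩
  simp only [Nat.add_sub_cancel, div_pow]
  rw [intervalIntegral.integral_div, pow_succ]
  field_simp

/-- PROOF: `vol' = c^{n/2} vol`, `area' = c^{(n-1)/2} area`, `c = -κ = b²`: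
`modelVol n (-1) (b r) = b^n modelVol n κ r`, `modelArea n (-1) (b r) = b^{n-1} modelArea n κ r`. -/
theorem isop_of_scale (hn : 1 ≤ n) {κ : ℝ} (hκ : κ < 0)
    (h : IsoperimetricIneq (scale M (-κ) (neg_pos.2 hκ)) (-1)) : IsoperimetricIneq M κ := by
  intro D
  obtain ⟨R, hR0, hV, hA⟩ := h D
  set b : ℝ := √(-κ) with hbdef
  have hb : 0 < b := Real.sqrt_pos.2 (neg_pos.2 hκ)
  have hb2 : -κ = b ^ 2 := (Real.sq_sqrt (neg_pos.2 hκ).le).symm
  have hR : b * (R / b) = R := by field_simp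
  refine ⟨R / b, div_nonneg hR0 hb.le, ?_, ?_⟩
  · rw [scale_riemVol hb _ hb2, ← hR, scale_modelVol hn hb hb2,
      ENNReal.ofReal_mul (pow_nonneg hb.le n)] at hV
    exact (ENNReal.mul_right_inj (by simpa using pow_pos hb n) ENNReal.ofReal_ne_top).1 hV
  · rw [scale_riemArea hn hb _ hb2, ← hR, scale_modelArea hb hb2,
      ENNReal.ofReal_mul (pow_nonneg hb.le (n - 1))] at hA
    exact (ENNReal.mul_le_mul_iff_right (by simpa using pow_pos hb (n - 1))
      ENNReal.ofReal_ne_top).1 hA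

end Vale.Agent.P219.Co
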