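import Vale.Agent.P219.CHH.ConnAux

/-! # Jacobi tensors of a metric with `Sec ≤ -1`, in a parallel frame -/

open Set Filter Topology
open scoped ContDiff
open Vale.Agent.P255

noncomputable section

namespace Vale.Agent.P219.CH

variable {n : ℕ} {M : RiemMetric n} {e : Fin n → E n → E n} (F : GFlow M.g)

theorem secLE_zero (hs : SecLE M (-1)) : SecLE M 0 := by
  obtain ⟨Γ, h1, h2, h3⟩ := hs
  refine ⟨Γ, h1, h2, fun x u v => ?_⟩
  have h4 := h3 x u v
  have h5 := cn_cs (isMetricOn M) x u v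
  rw [zero_mul]
  linarith

theorem sec_neg (hs : SecLE M (-1)) (x u v : E n) :
    M.g x (curv M.g x u v v) u ≤ -(M.g x u u * M.g x v v - M.g x u v ^ 2) := by
  obtain ⟨Γ, hΓ, hK, hc⟩ := hs
  have hd : DifferentiableAt ℝ Γ x := hΓ.differentiable (by simp) x
  have hch : ∀ y a b, chris M.g y a b = Γ y a b := chris_eq_of_koszul M hK
  have e1 : ∀ a b : E n, (fun p => chris M.g p a b) = fun p => Γ p a b := fun a b => by
    funext p; exact hch p a b
  have h := hc x u v
  rw [neg_one_mul] at h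
  unfold curv
  rw [e1, e1, fderiv_clm2 hd, fderiv_clm2 hd]
  simp only [hch]
  exact h

theorem cn_mem {R T T' : ℝ → E n →L[ℝ] E n} {u : E n} (hT : ∀ t, HasDerivAt T (T' t) t)
    (hT' : ∀ t, HasDerivAt T' ((R t).comp (T t)) t) (hR : ∀ t a, inner ℝ (R t a) u = 0)
    {t₀ : ℝ} {w : E n} (h0 : inner ℝ (T t₀ w) u = 0) (h1 : inner ℝ (T' t₀ w) u = 0) (t : ℝ) :
    inner ℝ (T t w) u = 0 ∧ inner ℝ (T' t w) u = 0 := by
  have e1 : ∀ s, HasDerivAt (fun s => inner ℝ (T' s w) u) 0 s := by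
    intro s
    have h2 := ((hT' s).clm_apply (hasDerivAt_const s w)).inner ℝ (hasDerivAt_const s u)
    refine h2.congr_deriv ?_
    simp [hR]
  have e2 : ∀ s, inner ℝ (T' s w) u = 0 := by
    intro s
    have h3 := is_const_of_deriv_eq_zero (fun s => (e1 s).differentiableAt)
      (fun s => (e1 s).deriv) s t₀
    rw [h3, h1]
  have e3 : ∀ s, HasDerivAt (fun s => inner ℝ (T s w) u) 0 s := by
    intro s
    have h2 := ((hT s).clm_apply (hasDerivAt_const s w)).inner ℝ (hasDerivAt_const s u)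
    refine h2.congr_deriv ?_
    simp [e2]
  have h3 := is_const_of_deriv_eq_zero (fun s => (e3 s).differentiableAt)
    (fun s => (e3 s).deriv) t t₀
  exact ⟨by rw [h3, h0], e2 t⟩

/-- compression to the orthogonal complement -/
def cn_cut (u : E n) (T : E n →L[ℝ] E n) : (ℝ ∙ u)ᗮ →L[ℝ] (ℝ ∙ u)ᗮ :=
  ((ℝ ∙ u)ᗮ.orthogonalProjectionOnto).comp (T.comp (ℝ ∙ u)ᗮ.subtypeL)

theorem cn_mem_perp {u w : E n} : w ∈ (ℝ ∙ u)ᗮ ↔ inner ℝ w u = 0 := by
  rw [Submodule.mem_orthogonal_singleton_iff_inner_left]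

theorem cn_cut_coe {u : E n} {T : E n →L[ℝ] E n} {w : (ℝ ∙ u)ᗮ}
    (h : inner ℝ (T w) u = 0) : ((cn_cut u T w : (ℝ ∙ u)ᗮ) : E n) = T w := by
  have h1 : T w ∈ (ℝ ∙ u)ᗮ := cn_mem_perp.2 h
  have h2 := Submodule.orthogonalProjectionOnto_mem_subspace_eq_self
    (K := (ℝ ∙ u)ᗮ) ⟨T w, h1⟩
  exact congrArg Subtype.val h2

theorem cn_cut_hasDerivAt {u : E n} {T : ℝ → E n →L[ℝ] E n} {T' : E n →L[ℝ] E n} {t : ℝ}
    (h : HasDerivAt T T' t) : HasDerivAt (fun s => cn_cut u (T s)) (cn_cut u T') t := by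
  have h1 := (hasDerivAt_const t ((ℝ ∙ u)ᗮ.orthogonalProjectionOnto)).clm_comp
    (h.clm_comp (hasDerivAt_const t (ℝ ∙ u)ᗮ.subtypeL))
  refine h1.congr_deriv ?_
  ext w
  simp [cn_cut]

theorem cn_jt {R T T' : ℝ → E n →L[ℝ] E n} {u : E n} (hT : ∀ t, HasDerivAt T (T' t) t)
    (hT' : ∀ t, HasDerivAt T' ((R t).comp (T t)) t)
    (hm : ∀ t (w : (ℝ ∙ u)ᗮ), inner ℝ (T t w) u = 0) :
    JT (fun t => cn_cut u (R t)) (fun t => cn_cut u (T t)) (fun t => cn_cut u (T' t)) := by
  refine ⟨fun t => cn_cut_hasDerivAt (hT t), fun t => ?_⟩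
  refine (cn_cut_hasDerivAt (hT' t)).congr_deriv ?_
  ext1 w
  change (ℝ ∙ u)ᗮ.orthogonalProjectionOnto (R t (T t w)) =
    (ℝ ∙ u)ᗮ.orthogonalProjectionOnto (R t (cn_cut u (T t) w))
  rw [cn_cut_coe (hm t w)]

/-- Along the geodesic `c t = exF x (t u)`, `|u| = 1`: `Q t` = parallel transport composed with the
frames, `R` = Jacobi operator on `u^⊥` in the parallel frame, `A` the Jacobi tensor vanishing at
`0`, `B` the Jacobi tensor vanishing at `r`. PROOF: `P` from exists_parallel (c smooth), `Q t =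
frB (c t) ∘ P t ∘ frA x` is an isometry, `Q t u = velF t x u`; every field `Y = P y` along `c` has
`covD Y = P y'`; jac_eqn for the Jacobi fields `jacJ x (frA x u) w` and, reversed in time, for
those of the geodesic from `y` (exF_add, velF_add: `exF y (s (-V)) = exF x ((r-s) u)`). -/
theorem exists_JT (he : TriangularFrame M e) (hs : SecLE M (-1)) (x u : E n) (hu : ‖u‖ = 1)
    (r : ℝ) :
    ∃ (R A A' B B' : ℝ → (ℝ ∙ u)ᗮ →L[ℝ] (ℝ ∙ u)ᗮ) (Q : ℝ → E n ≃ₗᵢ[ℝ] E n),
      JT R A A' ∧ JT R B B' ∧ Continuous R ∧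
      (∀ t v w, inner ℝ (R t v) w = inner ℝ v (R t w)) ∧
      (∀ t w, ‖w‖ ^ 2 ≤ inner ℝ (R t w) w) ∧
      A 0 = 0 ∧ A' 0 = ContinuousLinearMap.id ℝ _ ∧ B r = 0 ∧ B' r = -ContinuousLinearMap.id ℝ _ ∧
      (∀ t, Q t u = velF F e t x u) ∧
      (∀ t (w : (ℝ ∙ u)ᗮ), Q t (A t w) = t • dexF M F e x (t • u) w) ∧
      ∀ t (w : (ℝ ∙ u)ᗮ), Q t (B t w) = (r - t) • dexF M F e (exF F e x (r • u))
        ((r - t) • (-velF F e r x u)) (Q r w) := by
  have h : IsMetricOn M.g univ := isMetricOn M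
  obtain ⟨Q, R, hQs, hQ0, hQu, hRc, hRs, hRu, hRp, hJ⟩ := cn_core F he (sec_neg hs) x u hu
  set v₀ := frA e x u with hv₀
  set c := F.jacC x v₀ with hc
  have hcv : ∀ t, exF F e x (t • u) = c t := by
    intro t
    rw [exF, map_smul]
    rfl
  have hc0 : c 0 = x := F.jac_C_zero h x v₀
  have hex : ∀ y, ContDiff ℝ ∞ (fderiv ℝ (F.ex y)) := fun y =>
    (F.jac_ex_contDiff y).fderiv_right (m := ∞) (by simp)
  -- the Jacobi tensor vanishing at `0`
  obtain ⟨T, T', hT, hT', hTJ, hTJ'⟩ := hJ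
    (fun t => t • (fderiv ℝ (F.ex x) (t • v₀)).comp (frA e x)) (by
      have h1 : ContDiff ℝ ∞ fun t : ℝ => fderiv ℝ (F.ex x) (t • v₀) :=
        (hex x).comp (contDiff_id.smul contDiff_const)
      exact contDiff_id.smul (h1.clm_comp contDiff_const)) (by
      intro t w
      have h1 := (F.jac_eqn h x v₀ (frA e x w) t).2
      have h2 : (fun s : ℝ => (s • (fderiv ℝ (F.ex x) (s • v₀)).comp (frA e x)) w) =
          F.jacJ x v₀ (frA e x w) := by
        funext s
        simp [GFlow.jacJ]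
      have h3 := congrFun h2 t
      rw [h2, h3]
      exact h1)
  have hTJ2 : ∀ t w, frA e (c t) (Q t (T t w)) = F.jacJ x v₀ (frA e x w) t := by
    intro t w
    rw [hTJ]
    simp [GFlow.jacJ]
  have hTJ2' : ∀ t w, frA e (c t) (Q t (T' t w)) = covD M.g c (F.jacJ x v₀ (frA e x w)) t := by
    intro t w
    rw [hTJ']
    congr 1
    funext s
    simp [GFlow.jacJ]
  have hinj : ∀ t a b, frA e (c t) (Q t a) = frA e (c t) (Q t b) → a = b := by
    intro t a b hab
    have h1 := congrArg (frB M e (c t)) hab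
    rw [frB_frA he, frB_frA he] at h1
    exact (Q t).injective h1
  have hT0 : ∀ w, T 0 w = 0 := by
    intro w
    refine hinj 0 _ _ ?_
    rw [hTJ2, F.jac_J_zero]
    simp
  have hT0' : ∀ w, T' 0 w = w := by
    intro w
    refine hinj 0 _ _ ?_
    rw [hTJ2', F.jac_covD_J_zero h, hQ0, hc0]
  -- the Jacobi tensor vanishing at `r`
  set y := c r with hy
  set V := -velF F e r x u with hV
  set vb := frA e y V with hvb
  have hcb : F.jacC y vb = fun s => c (r - s) := by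
    funext s
    have h1 : F.jacC y vb s = exF F e y (s • V) := by
      rw [exF, map_smul]
      rfl
    rw [h1, hy, ← hcv r, hV, smul_neg, ← neg_smul, exF_add F he, ← sub_eq_add_neg, hcv]
  have hvel : ∀ s, F.vel s y vb = -F.vel (r - s) x v₀ := by
    intro s
    have h1 : deriv (F.jacC y vb) s = F.vel s y vb := congrFun (F.jac_deriv_C h y vb) s
    have h2 : deriv c (r - s) = F.vel (r - s) x v₀ := congrFun (F.jac_deriv_C h x v₀) (r - s)
    rw [← h1, hcb, deriv_comp_const_sub, h2]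
  obtain ⟨S, S', hS, hS', hSJ, hSJ'⟩ := hJ
    (fun t => (r - t) • (fderiv ℝ (F.ex y) ((r - t) • vb)).comp
      ((frA e y).comp ((Q r : E n ≃L[ℝ] E n) : E n →L[ℝ] E n))) (by
      have h0 : ContDiff ℝ ∞ fun t : ℝ => r - t := contDiff_const.sub contDiff_id
      have h1 : ContDiff ℝ ∞ fun t : ℝ => fderiv ℝ (F.ex y) ((r - t) • vb) :=
        (hex y).comp (h0.smul contDiff_const)
      exact h0.smul (h1.clm_comp contDiff_const)) (by
      intro t w
      have h1 := (F.jac_eqn h y vb (frA e y (Q r w)) (r - t)).2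
      have h2 : (fun s : ℝ => ((r - s) • (fderiv ℝ (F.ex y) ((r - s) • vb)).comp
          ((frA e y).comp ((Q r : E n ≃L[ℝ] E n) : E n →L[ℝ] E n))) w) =
          fun s => F.jacJ y vb (frA e y (Q r w)) (r - s) := by
        funext s
        simp [GFlow.jacJ]
      have h3 := congrFun h2 t
      have h4 : c = fun s => F.jacC y vb (r - s) := by
        funext s
        rw [hcb]
        simp
      rw [h2, h3]
      have h5 : covD M.g c (covD M.g c fun s => F.jacJ y vb (frA e y (Q r w)) (r - s)) t =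
          covD M.g (F.jacC y vb) (covD M.g (F.jacC y vb) (F.jacJ y vb (frA e y (Q r w))))
            (r - t) := by
        conv_lhs => rw [h4]
        exact cn_covD_rev2 _ _ _ _
      rw [h5, ← cn_curv_neg h]
      have h6 : -F.vel t x v₀ = F.vel (r - t) y vb := by
        rw [hvel, sub_sub_cancel]
      have h7 : c t = F.jacC y vb (r - t) := by
        conv_lhs => rw [h4]
      rw [h6, h7]
      exact h1)
  have hSJ2 : ∀ t w, frA e (c t) (Q t (S t w)) = F.jacJ y vb (frA e y (Q r w)) (r - t) := by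
    intro t w
    rw [hSJ]
    simp [GFlow.jacJ]
  have hSJ2' : ∀ t w, frA e (c t) (Q t (S' t w)) =
      -covD M.g (F.jacC y vb) (F.jacJ y vb (frA e y (Q r w))) (r - t) := by
    intro t w
    rw [hSJ', ← cn_covD_rev]
    congr 1
    · funext s
      rw [hcb]
      simp
    · funext s
      simp [GFlow.jacJ]
  have hS0 : ∀ w, S r w = 0 := by
    intro w
    refine hinj r _ _ ?_
    rw [hSJ2, sub_self, F.jac_J_zero]
    simp
  have hS0' : ∀ w, S' r w = -w := by
    intro w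
    refine hinj r _ _ ?_
    rw [hSJ2', sub_self, F.jac_covD_J_zero h]
    simp [hy]
  -- invariance of the complement
  have hTm : ∀ t (w : (ℝ ∙ u)ᗮ), inner ℝ (T t w) u = 0 := by
    intro t w
    refine (cn_mem hT hT' hRu (t₀ := 0) ?_ ?_ t).1
    · rw [hT0, inner_zero_left]
    · rw [hT0']
      exact cn_mem_perp.1 w.2
  have hSm : ∀ t (w : (ℝ ∙ u)ᗮ), inner ℝ (S t w) u = 0 := by
    intro t w
    refine (cn_mem hS hS' hRu (t₀ := r) ?_ ?_ t).1
    · rw [hS0, inner_zero_left]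
    · rw [hS0', inner_neg_left, cn_mem_perp.1 w.2, neg_zero]
  have hRcoe : ∀ t (w : (ℝ ∙ u)ᗮ), ((cn_cut u (R t) w : (ℝ ∙ u)ᗮ) : E n) = R t w := fun t w =>
    cn_cut_coe (hRu t w)
  refine ⟨fun t => cn_cut u (R t), fun t => cn_cut u (T t), fun t => cn_cut u (T' t),
    fun t => cn_cut u (S t), fun t => cn_cut u (S' t), Q, cn_jt hT hT' hTm, cn_jt hS hS' hSm,
    ?_, ?_, ?_, ?_, ?_, ?_, ?_, hQu, ?_, ?_⟩
  · exact continuous_const.clm_comp (hRc.clm_comp continuous_const)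
  · intro t v w
    rw [Submodule.coe_inner, Submodule.coe_inner, hRcoe, hRcoe]
    exact hRs t v w
  · intro t w
    rw [Submodule.coe_inner, hRcoe]
    exact hRp t w (cn_mem_perp.1 w.2)
  · ext1 w
    refine Subtype.ext ?_
    rw [cn_cut_coe (hTm 0 w), hT0]
    rfl
  · ext1 w
    refine Subtype.ext ?_
    have h1 : inner ℝ (T' 0 w) u = 0 := by
      rw [hT0']
      exact cn_mem_perp.1 w.2
    rw [cn_cut_coe h1, hT0']
    rfl
  · ext1 w
    refine Subtype.ext ?_
    rw [cn_cut_coe (hSm r w), hS0]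
    rfl
  · ext1 w
    refine Subtype.ext ?_
    have h1 : inner ℝ (S' r w) u = 0 := by
      rw [hS0', inner_neg_left, cn_mem_perp.1 w.2, neg_zero]
    rw [cn_cut_coe h1, hS0']
    rfl
  · intro t w
    rw [cn_cut_coe (hTm t w)]
    have h1 := congrArg (frB M e (c t)) (hTJ2 t w)
    rw [frB_frA he] at h1
    rw [h1, dexF, ContinuousLinearMap.comp_apply, fderiv_exF, hcv, map_smul]
    simp [GFlow.jacJ, hv₀]
  · intro t w
    rw [cn_cut_coe (hSm t w)]
    have h1 := congrArg (frB M e (c t)) (hSJ2 t w)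
    rw [frB_frA he] at h1
    have h2 : exF F e y ((r - t) • V) = c t := by
      have h3 : exF F e y ((r - t) • V) = F.jacC y vb (r - t) := by
        rw [exF, map_smul]
        rfl
      rw [h3, hcb]
      simp
    rw [h1, hcv r, ← hy, dexF, ContinuousLinearMap.comp_apply, fderiv_exF, h2, map_smul]
    simp [GFlow.jacJ, hvb]

end Vale.Agent.P219.CH
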