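import Vale.Agent.P219.CHH.LinW
import Vale.Agent.P219.TPH.GeoH

/-! # Jacobi tensors with curvature `≤ -1`: the two-ended comparison

`W` is the orthogonal complement of the velocity, `R t` the (negative of the) Jacobi operator in a
parallel frame: `A'' = R A`, `R t` symmetric and `≥ 1`. -/

open Set Filter Topology

namespace Vale.Agent.P219.CH

variable {W : Type} [NormedAddCommGroup W] [InnerProductSpace ℝ W] [FiniteDimensional ℝ W]

/-- A solution of `A'' = R A`. -/
structure JT (R A A' : ℝ → W →L[ℝ] W) : Prop where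
  d1 : ∀ t, HasDerivAt A (A' t) t
  d2 : ∀ t, HasDerivAt A' ((R t).comp (A t)) t

variable {R A A' B B' : ℝ → W →L[ℝ] W}

section Mono

/-- scalar comparison: `f'' ≥ 2 g² + 2 f`, `f'² ≤ 4 f g²` -/
lemma jtmono_eps {y y' : ℝ → W} {z : ℝ → W} (h1 : ∀ t, HasDerivAt y (y' t) t)
    (h2 : ∀ t, HasDerivAt y' (z t) t) (hz : ∀ t, ‖y t‖ ^ 2 ≤ inner ℝ (z t) (y t))
    (h0 : y 0 = 0) {ε : ℝ} (hε : 0 < ε) {s t : ℝ} (hs : 0 < s) (hst : s ≤ t) :
    Real.sinh t * (Real.sqrt (‖y s‖ ^ 2 + ε) - Real.sqrt ε) ≤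
      Real.sinh s * (Real.sqrt (‖y t‖ ^ 2 + ε) - Real.sqrt ε) := by
  set f : ℝ → ℝ := fun t => ‖y t‖ ^ 2 with hf
  have hf1 : ∀ t, HasDerivAt f (2 * inner ℝ (y t) (y' t)) t := fun t => (h1 t).norm_sq
  set p : ℝ → ℝ := fun t => inner ℝ (y t) (y' t) with hp
  have hp1 : ∀ t, HasDerivAt p (inner ℝ (y t) (z t) + inner ℝ (y' t) (y' t)) t :=
    fun t => (h1 t).inner ℝ (h2 t)
  set u : ℝ → ℝ := fun t => Real.sqrt (f t + ε) with hu
  have hfpos : ∀ t, 0 < f t + ε := fun t => by positivity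
  have hupos : ∀ t, 0 < u t := fun t => Real.sqrt_pos.2 (hfpos t)
  have husq : ∀ t, u t ^ 2 = f t + ε := fun t => Real.sq_sqrt (hfpos t).le
  have hu1 : ∀ t, HasDerivAt u (p t / u t) t := by
    intro t
    have := ((hf1 t).add_const ε).sqrt (hfpos t).ne'
    convert this using 1
    simp only [hp, hu]
    field_simp
  have hq1 : ∀ t, HasDerivAt (fun t => p t / u t)
      (((inner ℝ (y t) (z t) + inner ℝ (y' t) (y' t)) * u t - p t * (p t / u t)) / u t ^ 2) t :=
    fun t => (hp1 t).div (hu1 t) (hupos t).ne'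
  have hse : 0 < Real.sqrt ε := Real.sqrt_pos.2 hε
  have hsesq : Real.sqrt ε ^ 2 = ε := Real.sq_sqrt hε.le
  have hue : ∀ t, Real.sqrt ε ≤ u t := fun t => Real.sqrt_le_sqrt (by
    have : 0 ≤ f t := by positivity
    linarith)
  -- the key inequality
  have key : ∀ t, u t - Real.sqrt ε ≤
      ((inner ℝ (y t) (z t) + inner ℝ (y' t) (y' t)) * u t - p t * (p t / u t)) / u t ^ 2 := by
    intro t
    have hcs : p t ^ 2 ≤ f t * inner ℝ (y' t) (y' t) := by
      have := real_inner_mul_inner_self_le (y t) (y' t)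
      have e : inner ℝ (y t) (y t) = f t := real_inner_self_eq_norm_sq _
      rw [e] at this
      simpa [hp, sq] using this
    have hz' : f t ≤ inner ℝ (y t) (z t) := by
      have := hz t
      rwa [real_inner_comm] at this
    have hg : 0 ≤ inner ℝ (y' t) (y' t) := real_inner_self_nonneg
    rw [le_div_iff₀ (by have := hupos t; positivity)]
    have hu' := hupos t
    have e1 : p t * (p t / u t) = p t ^ 2 / u t := by ring
    rw [e1]
    have e2 : p t ^ 2 / u t ≤ u t * inner ℝ (y' t) (y' t) := by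
      rw [div_le_iff₀ hu']
      have : f t ≤ u t ^ 2 := by rw [husq]; linarith
      nlinarith
    have e3 : (u t - Real.sqrt ε) * u t ^ 2 ≤ f t * u t := by
      have h5 : f t = u t ^ 2 - Real.sqrt ε ^ 2 := by rw [husq, hsesq]; ring
      rw [h5]
      have h6 := hue t
      nlinarith [mul_nonneg (mul_nonneg hse.le hu'.le) (sub_nonneg.2 h6)]
    nlinarith
  -- `N = u' sinh - u cosh + √ε cosh` is nondecreasing
  set N : ℝ → ℝ := fun t => p t / u t * Real.sinh t - u t * Real.cosh t + Real.sqrt ε * Real.cosh t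
    with hN
  have hN1 : ∀ t, HasDerivAt N
      (((((inner ℝ (y t) (z t) + inner ℝ (y' t) (y' t)) * u t - p t * (p t / u t)) / u t ^ 2) -
        u t + Real.sqrt ε) * Real.sinh t) t := by
    intro t
    have a1 := ((hq1 t).mul (Real.hasDerivAt_sinh t))
    have a2 := ((hu1 t).mul (Real.hasDerivAt_cosh t))
    have a3 := ((Real.hasDerivAt_cosh t).const_mul (Real.sqrt ε))
    exact ((a1.sub a2).add a3).congr_deriv (by ring)
  have hNmono : MonotoneOn N (Ici 0) := by
    apply monotoneOn_of_deriv_nonneg (convex_Ici 0)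
    · exact fun t _ => (hN1 t).continuousAt.continuousWithinAt
    · exact fun t _ => (hN1 t).differentiableAt.differentiableWithinAt
    · intro t ht
      rw [interior_Ici] at ht
      rw [(hN1 t).deriv]
      exact mul_nonneg (by linarith [key t]) (Real.sinh_nonneg_iff.2 (le_of_lt ht))
  have hN0 : N 0 = 0 := by
    simp [hN, hu, hf, h0]
  have hNpos : ∀ t, 0 ≤ t → 0 ≤ N t := by
    intro t ht
    rw [← hN0]
    exact hNmono (mem_Ici.2 le_rfl) (mem_Ici.2 ht) ht
  -- the quotient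
  set q : ℝ → ℝ := fun t => (u t - Real.sqrt ε) / Real.sinh t with hq
  have hsinh : ∀ t, 0 < t → 0 < Real.sinh t := fun t ht => Real.sinh_pos_iff.2 ht
  have hqd : ∀ t, 0 < t → HasDerivAt q (N t / Real.sinh t ^ 2) t := by
    intro t ht
    exact (((hu1 t).sub_const (Real.sqrt ε)).div (Real.hasDerivAt_sinh t)
      (hsinh t ht).ne').congr_deriv (by simp only [hN]; ring)
  have hqmono : MonotoneOn q (Ioi 0) := by
    apply monotoneOn_of_deriv_nonneg (convex_Ioi 0)
    · exact fun t ht => (hqd t ht).continuousAt.continuousWithinAt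
    · intro t ht
      rw [interior_Ioi] at ht
      exact (hqd t ht).differentiableAt.differentiableWithinAt
    · intro t ht
      rw [interior_Ioi] at ht
      rw [(hqd t ht).deriv]
      exact div_nonneg (hNpos t (le_of_lt ht)) (sq_nonneg _)
  have hfin := hqmono (mem_Ioi.2 hs) (mem_Ioi.2 (lt_of_lt_of_le hs hst)) hst
  have hs' := hsinh s hs
  have ht' := hsinh t (lt_of_lt_of_le hs hst)
  simp only [hq] at hfin
  rw [div_le_div_iff₀ hs' ht'] at hfin
  simp only [hu, hf] at hfin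
  linarith

lemma jtmono_basic {y y' : ℝ → W} {z : ℝ → W} (h1 : ∀ t, HasDerivAt y (y' t) t)
    (h2 : ∀ t, HasDerivAt y' (z t) t) (hz : ∀ t, ‖y t‖ ^ 2 ≤ inner ℝ (z t) (y t))
    (h0 : y 0 = 0) {s t : ℝ} (hs : 0 ≤ s) (hst : s ≤ t) :
    Real.sinh t * ‖y s‖ ≤ Real.sinh s * ‖y t‖ := by
  rcases hs.eq_or_lt with rfl | hs
  · simp [h0]
  have lim : ∀ (a c : ℝ), 0 ≤ a → Tendsto (fun ε : ℝ => c * (Real.sqrt (a ^ 2 + ε) - Real.sqrt ε))
      (𝓝[>] 0) (𝓝 (c * a)) := by
    intro a c ha
    have hc : Continuous (fun ε : ℝ => c * (Real.sqrt (a ^ 2 + ε) - Real.sqrt ε)) := by fun_prop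
    have := (hc.tendsto 0).mono_left (nhdsWithin_le_nhds (s := Ioi 0))
    simpa [Real.sqrt_sq ha] using this
  refine le_of_tendsto_of_tendsto (lim ‖y s‖ (Real.sinh t) (norm_nonneg _))
    (lim ‖y t‖ (Real.sinh s) (norm_nonneg _)) ?_
  filter_upwards [self_mem_nhdsWithin] with ε hε
  exact jtmono_eps h1 h2 hz h0 hε hs hst

lemma jtmono_lower {y y' : ℝ → W} {z : ℝ → W} (h1 : ∀ t, HasDerivAt y (y' t) t)
    (h2 : ∀ t, HasDerivAt y' (z t) t) (hz : ∀ t, ‖y t‖ ^ 2 ≤ inner ℝ (z t) (y t))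
    (h0 : y 0 = 0) {t : ℝ} (ht : 0 ≤ t) :
    Real.sinh t * ‖y' 0‖ ≤ ‖y t‖ := by
  rcases ht.eq_or_lt with rfl | ht
  · simp
  have l1 : Tendsto (fun s : ℝ => s⁻¹ • y s) (𝓝[>] 0) (𝓝 (y' 0)) := by
    have := (h1 0).tendsto_slope_zero_right
    simpa [h0] using this
  have l2 : Tendsto (fun s : ℝ => s⁻¹ * Real.sinh s) (𝓝[>] 0) (𝓝 1) := by
    have := (Real.hasDerivAt_sinh 0).tendsto_slope_zero_right
    simpa using this
  have l3 : Tendsto (fun s : ℝ => Real.sinh t * ‖s⁻¹ • y s‖) (𝓝[>] 0)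
      (𝓝 (Real.sinh t * ‖y' 0‖)) := l1.norm.const_mul _
  have l4 : Tendsto (fun s : ℝ => s⁻¹ * Real.sinh s * ‖y t‖) (𝓝[>] 0) (𝓝 (1 * ‖y t‖)) :=
    l2.mul_const _
  rw [one_mul] at l4
  refine le_of_tendsto_of_tendsto l3 l4 ?_
  filter_upwards [Ioc_mem_nhdsGT ht] with s hs
  have hm := jtmono_basic h1 h2 hz h0 hs.1.le hs.2
  rw [norm_smul, Real.norm_of_nonneg (inv_nonneg.2 hs.1.le)]
  have hi : 0 ≤ s⁻¹ := inv_nonneg.2 hs.1.le
  nlinarith [mul_le_mul_of_nonneg_left hm hi]

end Mono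

/-- PROOF: `f = ‖A t w‖²`, `f'' ≥ 2‖A' w‖² + 2 f`, so `(‖A w‖/sinh)' ≥ 0`; the limit at `0` is
`‖w‖`. -/
theorem jt_mono (hA : JT R A A') (h0 : A 0 = 0) (h1 : A' 0 = ContinuousLinearMap.id ℝ W)
    (hR : ∀ t w, ‖w‖ ^ 2 ≤ inner ℝ (R t w) w) (w : W) {s t : ℝ} (hs : 0 ≤ s) (hst : s ≤ t) :
    Real.sinh t * ‖A s w‖ ≤ Real.sinh s * ‖A t w‖ ∧ Real.sinh t * ‖w‖ ≤ ‖A t w‖ := by
  have d1 : ∀ t, HasDerivAt (fun t => A t w) (A' t w) t := fun t => by
    simpa using (hA.d1 t).clm_apply (hasDerivAt_const t w)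
  have d2 : ∀ t, HasDerivAt (fun t => A' t w) (R t (A t w)) t := fun t => by
    simpa using (hA.d2 t).clm_apply (hasDerivAt_const t w)
  have hz : ∀ t, ‖A t w‖ ^ 2 ≤ inner ℝ (R t (A t w)) (A t w) := fun t => hR t _
  have e0 : A 0 w = 0 := by simp [h0]
  refine ⟨jtmono_basic d1 d2 hz e0 hs hst, ?_⟩
  have := jtmono_lower d1 d2 hz e0 (hs.trans hst)
  simpa [h1] using this

/-- Wronskian: `A' ᵀ B - Aᵀ B'` is constant. -/
theorem jt_wronskian (hA : JT R A A') (hB : JT R B B')
    (hs : ∀ t v w, inner ℝ (R t v) w = inner ℝ v (R t w)) (v w : W) (s t : ℝ) :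
    inner ℝ (A' s v) (B s w) - inner ℝ (A s v) (B' s w) =
      inner ℝ (A' t v) (B t w) - inner ℝ (A t v) (B' t w) := by
  have dA1 : ∀ t, HasDerivAt (fun t => A t v) (A' t v) t := fun t => by
    simpa using (hA.d1 t).clm_apply (hasDerivAt_const t v)
  have dA2 : ∀ t, HasDerivAt (fun t => A' t v) (R t (A t v)) t := fun t => by
    simpa using (hA.d2 t).clm_apply (hasDerivAt_const t v)
  have dB1 : ∀ t, HasDerivAt (fun t => B t w) (B' t w) t := fun t => by
    simpa using (hB.d1 t).clm_apply (hasDerivAt_const t w)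
  have dB2 : ∀ t, HasDerivAt (fun t => B' t w) (R t (B t w)) t := fun t => by
    simpa using (hB.d2 t).clm_apply (hasDerivAt_const t w)
  have hd : ∀ t, HasDerivAt (fun t => inner ℝ (A' t v) (B t w) - inner ℝ (A t v) (B' t w)) 0 t := by
    intro t
    exact (((dA2 t).inner ℝ (dB1 t)).sub ((dA1 t).inner ℝ (dB2 t))).congr_deriv
      (by rw [hs t (A t v) (B t w)]; ring)
  exact is_const_of_deriv_eq_zero (fun t => (hd t).differentiableAt) (fun t => (hd t).deriv) s t

/-- Index form comparison with the model field. PROOF: `Y = A A(r)⁻¹ β + B B(0)⁻¹ α`,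
`∫₀^r |Y'|² + ⟨R Y,Y⟩ = ⟨Y',Y⟩|`, `≥ ∫ |Y'|² + |Y|² ≥ 2∫(Y'Z'+YZ) - ∫(|Z'|²+|Z|²)` with
`Z t = (sinh (r-t) α + sinh t β)/sinh r`. -/
theorem jt_index (hR : ∀ t w, ‖w‖ ^ 2 ≤ inner ℝ (R t w) w) {Y Y' : ℝ → W} {r : ℝ} (hr : 0 < r)
    (h1 : ∀ t, HasDerivAt Y (Y' t) t) (h2 : ∀ t, HasDerivAt Y' (R t (Y t)) t)
    (hRc : Continuous R) :
    TP.cth r * (‖Y 0‖ ^ 2 + ‖Y r‖ ^ 2) - 2 / Real.sinh r * inner ℝ (Y 0) (Y r) ≤
      inner ℝ (Y' r) (Y r) - inner ℝ (Y' 0) (Y 0) := by
  have hsr : 0 < Real.sinh r := Real.sinh_pos_iff.2 hr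
  let Z : ℝ → W := fun t => (Real.sinh r)⁻¹ • (Real.sinh (r - t) • Y 0 + Real.sinh t • Y r)
  let Z' : ℝ → W := fun t =>
    (Real.sinh r)⁻¹ • (-Real.cosh (r - t) • Y 0 + Real.cosh t • Y r)
  have hZ : ∀ t, HasDerivAt Z (Z' t) t := by
    intro t
    have e1 : HasDerivAt (fun t => Real.sinh (r - t)) (-Real.cosh (r - t)) t := by
      have := ((hasDerivAt_id t).const_sub r).sinh
      simpa using this
    exact ((e1.smul_const (Y 0)).add ((Real.hasDerivAt_sinh t).smul_const (Y r))).const_smul _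
  have hZ' : ∀ t, HasDerivAt Z' (Z t) t := by
    intro t
    have e1 : HasDerivAt (fun t => -Real.cosh (r - t)) (Real.sinh (r - t)) t := by
      have h5 : HasDerivAt (fun t => Real.cosh (r - t)) (-Real.sinh (r - t)) t := by
        have := ((hasDerivAt_id t).const_sub r).cosh
        simpa using this
      have h6 := h5.fun_neg
      rwa [neg_neg] at h6
    exact ((e1.smul_const (Y 0)).add ((Real.hasDerivAt_cosh t).smul_const (Y r))).const_smul _
  have hZ0 : Z 0 = Y 0 := by
    simp only [Z, sub_zero, Real.sinh_zero, zero_smul, add_zero, smul_smul]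
    rw [inv_mul_cancel₀ hsr.ne', one_smul]
  have hZr : Z r = Y r := by
    simp only [Z, sub_self, Real.sinh_zero, zero_smul, zero_add, smul_smul]
    rw [inv_mul_cancel₀ hsr.ne', one_smul]
  let F : ℝ → ℝ := fun t => inner ℝ (Y' t) (Y t) - 2 * inner ℝ (Z' t) (Y t) +
    inner ℝ (Z' t) (Z t)
  have hF : ∀ t, HasDerivAt F ((inner ℝ (Y' t) (Y' t) + inner ℝ (R t (Y t)) (Y t)) -
      2 * (inner ℝ (Z' t) (Y' t) + inner ℝ (Z t) (Y t)) +
      (inner ℝ (Z' t) (Z' t) + inner ℝ (Z t) (Z t))) t := by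
    intro t
    exact (((h2 t).inner ℝ (h1 t)).sub (((hZ' t).inner ℝ (h1 t)).const_mul 2)).add
      ((hZ' t).inner ℝ (hZ t))
  have hmono : Monotone F := by
    refine monotone_of_deriv_nonneg (fun t => (hF t).differentiableAt) fun t => ?_
    rw [(hF t).deriv]
    have e1 := hR t (Y t)
    have e2 : (0 : ℝ) ≤ ‖Y' t - Z' t‖ ^ 2 := sq_nonneg _
    have e3 : (0 : ℝ) ≤ ‖Y t - Z t‖ ^ 2 := sq_nonneg _
    rw [norm_sub_sq_real] at e2 e3
    rw [real_inner_self_eq_norm_sq, real_inner_self_eq_norm_sq, real_inner_self_eq_norm_sq,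
      real_inner_comm (Y' t) (Z' t), real_inner_comm (Y t) (Z t)]
    linarith
  have hle := hmono hr.le
  have hF0 : F 0 = inner ℝ (Y' 0) (Y 0) - inner ℝ (Z' 0) (Y 0) := by
    simp only [F, hZ0]
    ring
  have hFr : F r = inner ℝ (Y' r) (Y r) - inner ℝ (Z' r) (Y r) := by
    simp only [F, hZr]
    ring
  rw [hF0, hFr] at hle
  have e0 : inner ℝ (Z' 0) (Y 0) = (Real.sinh r)⁻¹ *
      (-Real.cosh r * ‖Y 0‖ ^ 2 + inner ℝ (Y 0) (Y r)) := by
    simp only [Z', sub_zero, Real.cosh_zero, one_smul]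
    rw [real_inner_smul_left, inner_add_left, real_inner_smul_left, real_inner_self_eq_norm_sq,
      real_inner_comm]
  have er : inner ℝ (Z' r) (Y r) = (Real.sinh r)⁻¹ *
      (-inner ℝ (Y 0) (Y r) + Real.cosh r * ‖Y r‖ ^ 2) := by
    simp only [Z', sub_self, Real.cosh_zero, neg_smul, one_smul]
    rw [real_inner_smul_left, inner_add_left, inner_neg_left, real_inner_smul_left,
      real_inner_self_eq_norm_sq]
  rw [e0, er] at hle
  have hfin : TP.cth r * (‖Y 0‖ ^ 2 + ‖Y r‖ ^ 2) - 2 / Real.sinh r * inner ℝ (Y 0) (Y r) =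
      (Real.sinh r)⁻¹ * (-inner ℝ (Y 0) (Y r) + Real.cosh r * ‖Y r‖ ^ 2) -
      (Real.sinh r)⁻¹ * (-Real.cosh r * ‖Y 0‖ ^ 2 + inner ℝ (Y 0) (Y r)) := by
    unfold TP.cth
    field_simp
    ring
  rw [hfin]
  linarith

/-- The two-ended comparison. `A` is the Jacobi tensor vanishing at `0`, `B` the one vanishing at
`r` (`B' r = -1`). PROOF: jt_index with `Y = b A A(r)⁻¹ f - a B B(0)⁻¹ f`, `f` in an orthonormal
basis, `B 0 = (A r)ᵀ`, trace_le_of_contraction for `sinh r • (A r)⁻¹`. -/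
theorem jt_bonus (hW : 1 ≤ Module.finrank ℝ W)
    (hA : JT R A A') (h0 : A 0 = 0) (h1 : A' 0 = ContinuousLinearMap.id ℝ W)
    (hs : ∀ t v w, inner ℝ (R t v) w = inner ℝ v (R t w))
    (hR : ∀ t w, ‖w‖ ^ 2 ≤ inner ℝ (R t w) w) (hRc : Continuous R) {r : ℝ} (hr : 0 < r)
    (hB : JT R B B') (hB0 : B r = 0) (hB1 : B' r = -ContinuousLinearMap.id ℝ W) {a b : ℝ}
    (ha : 0 ≤ a) (hb : 0 ≤ b) :
    2 * a * b / Real.sinh r * (1 - Real.sinh r ^ Module.finrank ℝ W / |(A r).det|) ≤
      b ^ 2 * (LinearMap.trace ℝ W ((A' r).comp (A r).inverse).toLinearMap -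
          Module.finrank ℝ W * TP.cth r) +
        a ^ 2 * (-LinearMap.trace ℝ W ((B' 0).comp (B 0).inverse).toLinearMap -
          Module.finrank ℝ W * TP.cth r) := by
  have hsr : 0 < Real.sinh r := Real.sinh_pos_iff.2 hr
  -- A r is invertible
  have hexp : ∀ w, Real.sinh r * ‖w‖ ≤ ‖A r w‖ := fun w =>
    (jt_mono hA h0 h1 hR w (le_refl 0) hr.le).2
  have hinjA : Function.Injective (A r) := by
    refine (injective_iff_map_eq_zero (A r)).2 fun w hw => ?_
    have := hexp w
    rw [hw, norm_zero] at this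
    have h3 : ‖w‖ ≤ 0 := by
      by_contra hc
      push Not at hc
      have := mul_pos hsr hc
      linarith
    exact norm_le_zero_iff.1 h3
  have htr : ∀ v w, inner ℝ v (B 0 w) = inner ℝ (A r v) w := by
    intro v w
    have h := jt_wronskian hA hB hs v w 0 r
    rw [h0, h1, hB0, hB1] at h
    simp only [ContinuousLinearMap.id_apply, _root_.zero_apply, inner_zero_left,
      inner_zero_right, _root_.neg_apply, inner_neg_right, sub_zero, zero_sub,
      neg_neg] at h
    exact h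
  let eA : W ≃L[ℝ] W :=
    (LinearEquiv.ofInjectiveEndo (A r).toLinearMap hinjA).toContinuousLinearEquiv
  have heA : (eA : W →L[ℝ] W) = A r := by
    ext w
    rfl
  have hinjB : Function.Injective (B 0) := by
    refine (injective_iff_map_eq_zero (B 0)).2 fun w hw => ?_
    have h3 := htr (eA.symm w) w
    rw [hw, inner_zero_right, ← heA] at h3
    simp only [ContinuousLinearEquiv.coe_coe, ContinuousLinearEquiv.apply_symm_apply] at h3
    exact inner_self_eq_zero.1 h3.symm
  let eB : W ≃L[ℝ] W :=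
    (LinearEquiv.ofInjectiveEndo (B 0).toLinearMap hinjB).toContinuousLinearEquiv
  have heB : (eB : W →L[ℝ] W) = B 0 := by
    ext w
    rfl
  have hinvA : (A r).inverse = (eA.symm : W →L[ℝ] W) := by
    rw [← heA, ContinuousLinearMap.inverse_equiv]
  have hinvB : (B 0).inverse = (eB.symm : W →L[ℝ] W) := by
    rw [← heB, ContinuousLinearMap.inverse_equiv]
  have hAe : ∀ w, A r (eA.symm w) = w := fun w => eA.apply_symm_apply w
  have hBe : ∀ w, B 0 (eB.symm w) = w := fun w => eB.apply_symm_apply w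
  let bs := stdOrthonormalBasis ℝ W
  -- the index inequality for one vector
  have key : ∀ f : W, ‖f‖ = 1 → TP.cth r * (a ^ 2 + b ^ 2) + 2 * a * b / Real.sinh r ≤
      b ^ 2 * inner ℝ f (A' r (eA.symm f)) + a * b * inner ℝ f (eB.symm f) +
      a * b * inner ℝ f (eA.symm f) - a ^ 2 * inner ℝ f (B' 0 (eB.symm f)) := by
    intro f hf
    have hY : ∀ t, HasDerivAt (fun t => b • A t (eA.symm f) - a • B t (eB.symm f))
        (b • A' t (eA.symm f) - a • B' t (eB.symm f)) t := by
      intro t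
      have e1 : HasDerivAt (fun t => A t (eA.symm f)) (A' t (eA.symm f)) t := by
        simpa using (hA.d1 t).clm_apply (hasDerivAt_const t (eA.symm f))
      have e2 : HasDerivAt (fun t => B t (eB.symm f)) (B' t (eB.symm f)) t := by
        simpa using (hB.d1 t).clm_apply (hasDerivAt_const t (eB.symm f))
      exact (e1.const_smul b).sub (e2.const_smul a)
    have hY' : ∀ t, HasDerivAt (fun t => b • A' t (eA.symm f) - a • B' t (eB.symm f))
        (R t (b • A t (eA.symm f) - a • B t (eB.symm f))) t := by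
      intro t
      have e1 : HasDerivAt (fun t => A' t (eA.symm f)) (R t (A t (eA.symm f))) t := by
        simpa using (hA.d2 t).clm_apply (hasDerivAt_const t (eA.symm f))
      have e2 : HasDerivAt (fun t => B' t (eB.symm f)) (R t (B t (eB.symm f))) t := by
        simpa using (hB.d2 t).clm_apply (hasDerivAt_const t (eB.symm f))
      have e3 : R t (b • A t (eA.symm f) - a • B t (eB.symm f)) =
          b • R t (A t (eA.symm f)) - a • R t (B t (eB.symm f)) := by
        rw [map_sub, map_smul, map_smul]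
      rw [e3]
      exact (e1.const_smul b).sub (e2.const_smul a)
    have h := jt_index hR hr hY hY' hRc
    simp only [h0, hB0, hB1, h1, _root_.zero_apply, smul_zero, zero_sub, sub_zero,
      hAe, hBe, _root_.neg_apply, ContinuousLinearMap.id_apply, smul_neg,
      sub_neg_eq_add, norm_neg, norm_smul, hf, mul_one, Real.norm_eq_abs, sq_abs, inner_neg_left,
      inner_neg_right, inner_smul_left, inner_smul_right, inner_add_left, inner_sub_left,
      real_inner_self_eq_norm_sq, RCLike.conj_to_real, one_pow] at h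
    rw [real_inner_comm f (A' r (eA.symm f)), real_inner_comm f (eB.symm f),
      real_inner_comm f (eA.symm f), real_inner_comm f (B' 0 (eB.symm f))] at h
    have e5 : TP.cth r * (a ^ 2 + b ^ 2) + 2 * a * b / Real.sinh r =
      TP.cth r * (a ^ 2 + b ^ 2) - 2 / Real.sinh r * (b * -a) := by ring
    rw [e5]
    refine h.trans (le_of_eq ?_)
    ring
  have hsymm : ∀ f : W, inner ℝ f (eB.symm f) = inner ℝ f (eA.symm f) := by
    intro f
    have h3 := htr (eA.symm f) (eB.symm f)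
    rw [hBe, hAe] at h3
    rw [← h3, real_inner_comm]
  -- the sum over an orthonormal basis
  have t1 : LinearMap.trace ℝ W ((A' r).comp (A r).inverse).toLinearMap =
      ∑ i, inner ℝ (bs i) (A' r (eA.symm (bs i))) := by
    rw [LinearMap.trace_eq_sum_inner _ bs, hinvA]
    rfl
  have t2 : LinearMap.trace ℝ W ((B' 0).comp (B 0).inverse).toLinearMap =
      ∑ i, inner ℝ (bs i) (B' 0 (eB.symm (bs i))) := by
    rw [LinearMap.trace_eq_sum_inner _ bs, hinvB]
    rfl
  have t0 : LinearMap.trace ℝ W (eA.symm : W →L[ℝ] W).toLinearMap =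
      ∑ i, inner ℝ (bs i) (eA.symm (bs i)) := by
    rw [LinearMap.trace_eq_sum_inner _ bs]
    rfl
  have hsum : (Module.finrank ℝ W : ℝ) * (TP.cth r * (a ^ 2 + b ^ 2) + 2 * a * b / Real.sinh r) ≤
      b ^ 2 * LinearMap.trace ℝ W ((A' r).comp (A r).inverse).toLinearMap +
      2 * a * b * LinearMap.trace ℝ W (eA.symm : W →L[ℝ] W).toLinearMap -
      a ^ 2 * LinearMap.trace ℝ W ((B' 0).comp (B 0).inverse).toLinearMap := by
    rw [t0, t1, t2, Finset.mul_sum, Finset.mul_sum, Finset.mul_sum, ← Finset.sum_add_distrib,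
      ← Finset.sum_sub_distrib]
    have hc : (Module.finrank ℝ W : ℝ) *
        (TP.cth r * (a ^ 2 + b ^ 2) + 2 * a * b / Real.sinh r) =
        ∑ _i : Fin (Module.finrank ℝ W),
          (TP.cth r * (a ^ 2 + b ^ 2) + 2 * a * b / Real.sinh r) := by
      rw [Finset.sum_const, Finset.card_univ, Fintype.card_fin, nsmul_eq_mul]
    rw [hc]
    refine Finset.sum_le_sum fun i _ => ?_
    have h := key (bs i) (bs.orthonormal.1 i)
    rw [hsymm] at h
    linarith
  -- the contraction
  have hcon := trace_le_of_contraction (B := Real.sinh r • (eA.symm : W →L[ℝ] W)) (by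
    intro w
    rw [_root_.smul_apply, norm_smul, Real.norm_of_nonneg hsr.le]
    have := hexp (eA.symm w)
    rwa [hAe] at this) hW
  have hdet : (Real.sinh r • (eA.symm : W →L[ℝ] W)).det =
      Real.sinh r ^ Module.finrank ℝ W * ((A r).det)⁻¹ := by
    have e1 : (Real.sinh r • (eA.symm : W →L[ℝ] W)).det =
        LinearMap.det (Real.sinh r • (eA.symm : W →L[ℝ] W).toLinearMap) := rfl
    have e2 : LinearMap.det (eA.symm : W →L[ℝ] W).toLinearMap * (A r).det = 1 := by
      have e3 : (A r).det = LinearMap.det (A r).toLinearMap := rfl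
      rw [e3, ← LinearMap.det_comp]
      have e4 : (eA.symm : W →L[ℝ] W).toLinearMap ∘ₗ (A r).toLinearMap = LinearMap.id := by
        ext w
        exact eA.symm_apply_apply w
      rw [e4, LinearMap.det_id]
    rw [e1, LinearMap.det_smul, eq_inv_of_mul_eq_one_left e2]
  have htrs : LinearMap.trace ℝ W (Real.sinh r • (eA.symm : W →L[ℝ] W)).toLinearMap =
      Real.sinh r * LinearMap.trace ℝ W (eA.symm : W →L[ℝ] W).toLinearMap := by
    have e1 : (Real.sinh r • (eA.symm : W →L[ℝ] W)).toLinearMap =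
      Real.sinh r • (eA.symm : W →L[ℝ] W).toLinearMap := rfl
    rw [e1, map_smul, smul_eq_mul]
  rw [hdet, htrs, abs_mul, abs_inv, abs_of_pos (pow_pos hsr _)] at hcon
  have hcon2 : (1 - Real.sinh r ^ Module.finrank ℝ W / |(A r).det|) / Real.sinh r ≤
      (Module.finrank ℝ W : ℝ) / Real.sinh r -
        LinearMap.trace ℝ W (eA.symm : W →L[ℝ] W).toLinearMap := by
    rw [div_le_iff₀ hsr, sub_mul, div_mul_cancel₀ _ hsr.ne', div_eq_mul_inv]
    linarith
  have h2ab : 0 ≤ 2 * a * b := by positivity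
  have hfin := mul_le_mul_of_nonneg_left hcon2 h2ab
  have e7 : 2 * a * b / Real.sinh r *
      (1 - Real.sinh r ^ Module.finrank ℝ W / |(A r).det|) =
      2 * a * b * ((1 - Real.sinh r ^ Module.finrank ℝ W / |(A r).det|) / Real.sinh r) := by
    ring
  rw [e7]
  refine hfin.trans ?_
  have e8 : (Module.finrank ℝ W : ℝ) *
      (TP.cth r * (a ^ 2 + b ^ 2) + 2 * a * b / Real.sinh r) =
      Module.finrank ℝ W * TP.cth r * a ^ 2 + Module.finrank ℝ W * TP.cth r * b ^ 2 +
      2 * a * b * ((Module.finrank ℝ W : ℝ) / Real.sinh r) := by ring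
  rw [e8] at hsum
  linarith

section Det

open Finset in
lemma jtdet_sum {ι : Type*} [Fintype ι] [DecidableEq ι] (X Y : Matrix ι ι ℝ) :
    ∑ σ : Equiv.Perm ι, ((Equiv.Perm.sign σ : ℤ) : ℝ) *
      ∑ i, (∏ j ∈ univ.erase i, X (σ j) j) * Y (σ i) i =
      (X.adjugate * Y).trace := by
  simp only [Finset.mul_sum]
  rw [Finset.sum_comm]
  rw [Matrix.trace]
  refine Finset.sum_congr rfl fun i _ => ?_
  have h1 : (X.adjugate * Y).diag i = (X.updateCol i (fun j => Y j i)).det := by
    rw [← Matrix.cramer_apply, Matrix.cramer_eq_adjugate_mulVec]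
    simp [Matrix.mul_apply, Matrix.mulVec, dotProduct, Matrix.diag]
  rw [h1, Matrix.det_apply']
  refine Finset.sum_congr rfl fun σ _ => ?_
  have : ∏ k, (X.updateCol i (fun j => Y j i)) (σ k) k =
      (∏ j ∈ univ.erase i, X (σ j) j) * Y (σ i) i := by
    rw [← Finset.prod_erase_mul univ _ (Finset.mem_univ i)]
    congr 1
    · refine Finset.prod_congr rfl fun j hj => ?_
      rw [Matrix.updateCol_ne (Finset.ne_of_mem_erase hj)]
    · simp
  rw [this]

lemma jtdet_log {ι : Type*} [Fintype ι] [DecidableEq ι] {M : ℝ → Matrix ι ι ℝ}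
    {M' : Matrix ι ι ℝ} {t : ℝ} (hM : ∀ i j, HasDerivAt (fun s => M s i j) (M' i j) t)
    (h : (M t).det ≠ 0) :
    HasDerivAt (fun x => Real.log |(M x).det|) ((M t)⁻¹ * M').trace t := by
  have h0 : HasDerivAt (fun x => (M x).det) ((M t).adjugate * M').trace t := by
    rw [← jtdet_sum]
    simp only [Matrix.det_apply']
    refine HasDerivAt.fun_sum fun σ _ => ?_
    have h := HasDerivAt.fun_finsetProd (u := (Finset.univ : Finset ι)) (x := t)
      (f := fun i x => M x (σ i) i) (f' := fun i => M' (σ i) i) (fun i _ => hM (σ i) i)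
    simp only [smul_eq_mul] at h
    exact h.const_mul _
  have h1 := h0.log h
  simp only [Real.log_abs]
  convert h1 using 1
  rw [Matrix.inv_def, Matrix.smul_mul, Matrix.trace_smul, Ring.inverse_eq_inv', smul_eq_mul]
  field_simp

end Det

/-- Jacobi's formula. -/
theorem jt_log_det {A A' : ℝ → W →L[ℝ] W} {t : ℝ} (h : HasDerivAt A (A' t) t)
    (hd : (A t).det ≠ 0) :
    HasDerivAt (fun s => Real.log |(A s).det|)
      (LinearMap.trace ℝ W ((A' t).comp (A t).inverse).toLinearMap) t := by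
  classical
  set b := Module.finBasis ℝ W with hb
  set M : ℝ → Matrix _ _ ℝ := fun s => LinearMap.toMatrix b b (A s).toLinearMap with hM
  set M' : Matrix _ _ ℝ := LinearMap.toMatrix b b (A' t).toLinearMap with hM'
  have hdet : ∀ s, (A s).det = (M s).det := by
    intro s
    rw [hM, LinearMap.det_toMatrix]
  have hent : ∀ i j, HasDerivAt (fun s => M s i j) (M' i j) t := by
    intro i j
    have h1 : HasDerivAt (fun s => A s (b j)) (A' t (b j)) t := by
      simpa using h.clm_apply (hasDerivAt_const t (b j))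
    have h2 := ((b.coord i).toContinuousLinearMap.hasFDerivAt
      (x := A t (b j))).comp_hasDerivAt t h1
    have e1 : ∀ s, M s i j = (b.coord i).toContinuousLinearMap (A s (b j)) := by
      intro s
      simp [hM, LinearMap.toMatrix_apply]
    have e2 : M' i j = (b.coord i).toContinuousLinearMap (A' t (b j)) := by
      simp [hM', LinearMap.toMatrix_apply]
    simp only [e1, e2]
    exact h2
  have hMd : (M t).det ≠ 0 := by rw [← hdet]; exact hd
  have hmain := jtdet_log hent hMd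
  simp only [← hdet] at hmain
  convert hmain using 1
  -- the traces
  have hinv : (A t).comp (A t).inverse = ContinuousLinearMap.id ℝ W := by
    set e := (A t).toContinuousLinearEquivOfDetNeZero hd with he
    have h1 : (e : W →L[ℝ] W) = A t := by
      ext x; simp [he]
    rw [← h1, ContinuousLinearMap.inverse_equiv]
    ext x; simp
  have hMi : LinearMap.toMatrix b b ((A t).inverse).toLinearMap = (M t)⁻¹ := by
    symm
    apply Matrix.inv_eq_right_inv
    rw [hM]
    simp only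
    rw [← LinearMap.toMatrix_comp b b b]
    have : (A t).toLinearMap ∘ₗ ((A t).inverse).toLinearMap = LinearMap.id := by
      ext x
      have := congrArg (fun f : W →L[ℝ] W => f x) hinv
      simpa using this
    rw [this, LinearMap.toMatrix_id]
  rw [LinearMap.trace_eq_matrix_trace ℝ b]
  have hc : ((A' t).comp (A t).inverse).toLinearMap =
      (A' t).toLinearMap ∘ₗ ((A t).inverse).toLinearMap := rfl
  rw [hc, LinearMap.toMatrix_comp b b b, hMi, Matrix.trace_mul_comm]

end Vale.Agent.P219.CH
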