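import Vale.Agent.P219.CHH.Parallel
import Vale.Agent.P219.CHH.JacTensor
import Vale.Agent.P219.CH.Sys

/-! # Auxiliary lemmas for `Conn.lean` -/

open Set Filter Topology
open scoped ContDiff
open Vale.Agent.P255

noncomputable section

namespace Vale.Agent.P219.CH

section Gen

variable {V : Type} [NormedAddCommGroup V] [NormedSpace ℝ V]
variable {G : V → V →L[ℝ] V →L[ℝ] ℝ}

theorem cn_covD_neg (c Y : ℝ → V) (t : ℝ) : covD G c (fun s => -Y s) t = -covD G c Y t := by
  unfold covD
  rw [deriv.fun_neg, chris_neg_right]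
  abel

theorem cn_covD_rev (c Y : ℝ → V) (r t : ℝ) :
    covD G (fun s => c (r - s)) (fun s => Y (r - s)) t = -covD G c Y (r - t) := by
  unfold covD
  rw [deriv_comp_const_sub, deriv_comp_const_sub, chris_neg_left]
  abel

theorem cn_covD_rev2 (c Y : ℝ → V) (r t : ℝ) :
    covD G (fun s => c (r - s)) (covD G (fun s => c (r - s)) (fun s => Y (r - s))) t =
      covD G c (covD G c Y) (r - t) := by
  have h1 : covD G (fun s => c (r - s)) (fun s => Y (r - s)) =
      fun s => (fun s' => -covD G c Y s') (r - s) := by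
    funext s
    exact cn_covD_rev c Y r s
  rw [h1, cn_covD_rev c (fun s' => -covD G c Y s') r t, cn_covD_neg, neg_neg]

/-- Cauchy-Schwarz -/
theorem cn_cs (h : IsMetricOn G univ) (x u v : V) : G x u v ^ 2 ≤ G x u u * G x v v := by
  by_cases hv : v = 0
  · subst hv
    simp
  · have hp := h.pos x (mem_univ _) v hv
    have h1 := h.nonneg (mem_univ x) (G x v v • u - G x u v • v)
    have hs := h.symm x (mem_univ _) v u
    simp only [map_sub, sub_apply, map_smul, smul_apply, smul_eq_mul, hs] at h1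
    have h2 : 0 ≤ G x v v * (G x u u * G x v v - G x u v ^ 2) := by nlinarith
    have h3 := nonneg_of_mul_nonneg_right h2 hp
    linarith

variable [FiniteDimensional ℝ V]

/-- the curvature operator `a ↦ R(a, v) v` as a continuous linear map -/
def cn_op (G : V → V →L[ℝ] V →L[ℝ] ℝ) (x v : V) : V →L[ℝ] V :=
  ((fderiv ℝ (chrisB G) x).flip v).flip v - (fderiv ℝ (chrisB G) x v).flip v
    + (chrisB G x).flip (chrisB G x v v) - (chrisB G x v).comp ((chrisB G x).flip v)

theorem cn_op_apply (h : IsMetricOn G univ) (x v a : V) :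
    cn_op G x v a = curv G x a v v := by
  rw [h.curv_eq (mem_univ _)]
  rfl

theorem cn_curv_neg (h : IsMetricOn G univ) (x a v : V) :
    curv G x a (-v) (-v) = curv G x a v v := by
  rw [h.curv_eq (mem_univ _), h.curv_eq (mem_univ _)]
  simp only [map_neg, neg_apply, neg_neg]

theorem cn_op_continuous (h : IsMetricOn G univ) {c v : ℝ → V} (hc : Continuous c)
    (hv : Continuous v) (a : V) : Continuous fun t => cn_op G (c t) (v t) a := by
  have hB : Continuous (chrisB G) :=
    continuous_iff_continuousAt.2 fun x => (h.contDiffAt_chrisB (mem_univ _)).continuousAt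
  have hD : Continuous (fderiv ℝ (chrisB G)) :=
    continuous_iff_continuousAt.2 fun x =>
      ((h.contDiffAt_chrisB (mem_univ _)).fderiv_right (m := ∞) (by simp)).continuousAt
  have hBc : Continuous fun t => chrisB G (c t) := hB.comp hc
  have hDc : Continuous fun t => fderiv ℝ (chrisB G) (c t) := hD.comp hc
  have e : (fun t => cn_op G (c t) (v t) a) = fun t =>
      fderiv ℝ (chrisB G) (c t) a (v t) (v t) - fderiv ℝ (chrisB G) (c t) (v t) a (v t)
      + chrisB G (c t) a (chrisB G (c t) (v t) (v t))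
      - chrisB G (c t) (v t) (chrisB G (c t) a (v t)) := by
    funext t
    rfl
  rw [e]
  have h1 : Continuous fun t => fderiv ℝ (chrisB G) (c t) a (v t) (v t) :=
    ((hDc.clm_apply continuous_const).clm_apply hv).clm_apply hv
  have h2 : Continuous fun t => fderiv ℝ (chrisB G) (c t) (v t) a (v t) :=
    ((hDc.clm_apply hv).clm_apply continuous_const).clm_apply hv
  have h3 : Continuous fun t => chrisB G (c t) a (chrisB G (c t) (v t) (v t)) :=
    (hBc.clm_apply continuous_const).clm_apply ((hBc.clm_apply hv).clm_apply hv)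
  have h4 : Continuous fun t => chrisB G (c t) (v t) (chrisB G (c t) a (v t)) :=
    (hBc.clm_apply hv).clm_apply ((hBc.clm_apply continuous_const).clm_apply hv)
  exact ((h1.sub h2).add h3).sub h4

end Gen

variable {n : ℕ} {M : RiemMetric n} {e : Fin n → E n → E n} (F : GFlow M.g)

/-- the parallel orthonormal frame along a geodesic -/
theorem cn_frame (he : TriangularFrame M e) (x u : E n) :
    ∃ Q : ℝ → E n ≃ₗᵢ[ℝ] E n,
      ContDiff ℝ ∞ (fun t => ((Q t : E n ≃L[ℝ] E n) : E n →L[ℝ] E n)) ∧
      (∀ w, Q 0 w = w) ∧ (∀ t, Q t u = velF F e t x u) ∧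
      ∀ (y : ℝ → E n) (y' : E n) (t : ℝ), HasDerivAt y y' t →
        covD M.g (F.jacC x (frA e x u)) (fun s => frA e (F.jacC x (frA e x u) s) (Q s (y s))) t =
          frA e (F.jacC x (frA e x u) t) (Q t y') := by
  have h : IsMetricOn M.g univ := isMetricOn M
  set v₀ := frA e x u with hv₀
  set c := F.jacC x v₀ with hc
  have hcs : ContDiff ℝ ∞ c :=
    (F.jac_ex_contDiff x).comp (contDiff_id.smul contDiff_const)
  have hcd : ∀ t, HasDerivAt c (F.vel t x v₀) t := fun t => F.jac_hasDerivAt_C h x v₀ t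
  have hc0 : c 0 = x := F.jac_C_zero h x v₀
  obtain ⟨P, hP, hP0, hPcov, hPiso⟩ := exists_parallel h hcs
  have hPd : ∀ t w, HasDerivAt (fun s => P s w) (deriv (fun s => P s w) t) t := fun t w =>
    ((hP.clm_apply contDiff_const).differentiable (by simp) t).hasDerivAt
  have hPd' : ∀ t w, deriv (fun s => P s w) t = -chris M.g (c t) (deriv c t) (P t w) := by
    intro t w
    have h1 := hPcov t w
    unfold covD at h1
    exact eq_neg_of_add_eq_zero_left h1
  -- the isometries
  have hQn : ∀ t w, ‖frB M e (c t) (P t (frA e x w))‖ = ‖w‖ := by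
    intro t w
    have h1 : ‖frB M e (c t) (P t (frA e x w))‖ ^ 2 = ‖w‖ ^ 2 := by
      rw [norm_frB_sq he, hPiso, hc0, g_frA_self he]
    exact (pow_left_inj₀ (norm_nonneg _) (norm_nonneg _) two_ne_zero).1 h1
  let Qi : ℝ → E n →ₗᵢ[ℝ] E n := fun t =>
    { toLinearMap := ((frB M e (c t)).comp ((P t).comp (frA e x)) : E n →L[ℝ] E n)
      norm_map' := fun w => hQn t w }
  let Q : ℝ → E n ≃ₗᵢ[ℝ] E n := fun t => (Qi t).toLinearIsometryEquiv rfl
  have hQ : ∀ t w, Q t w = frB M e (c t) (P t (frA e x w)) := fun t w => rfl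
  have hQΦ : ∀ t w, frA e (c t) (Q t w) = P t (frA e x w) := by
    intro t w
    rw [hQ, frA_frB he]
  refine ⟨Q, ?_, ?_, ?_, ?_⟩
  · have e1 : (fun t => ((Q t : E n ≃L[ℝ] E n) : E n →L[ℝ] E n)) =
        fun t => (frB M e (c t)).comp ((P t).comp (frA e x)) := by
      funext t
      ext1 w
      exact hQ t w
    rw [e1]
    exact ((frB_smooth he).comp hcs).clm_comp (hP.clm_comp contDiff_const)
  · intro w
    rw [hQ, hP0, hc0]
    exact frB_frA he x w
  · intro t
    -- the velocity is parallel
    have hvel : P t v₀ = F.vel t x v₀ := by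
      have hvd : ∀ s, HasDerivAt (fun s => F.vel s x v₀)
          (-chris M.g (c s) (F.vel s x v₀) (F.vel s x v₀)) s := fun s =>
        F.jac_hasDerivAt_vel h x v₀ s
      have hZd : ∀ s, HasDerivAt (fun s => P s v₀ - F.vel s x v₀)
          (-chris M.g (c s) (deriv c s) (P s v₀ - F.vel s x v₀)) s := by
        intro s
        refine ((hPd s v₀).sub (hvd s)).congr_deriv ?_
        rw [hPd', (hcd s).deriv]
        simp only [← chrisB_apply, map_sub]
        abel
      have hcov : ∀ s, covD M.g c (fun s => P s v₀ - F.vel s x v₀) s = 0 := by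
        intro s
        unfold covD
        rw [(hZd s).deriv]
        simp
      have hconst : ∀ s, HasDerivAt (fun s => M.g (c s) (P s v₀ - F.vel s x v₀)
          (P s v₀ - F.vel s x v₀)) 0 s := by
        intro s
        refine (h.hasDerivAt_inner (mem_univ _) (hcd s).differentiableAt
          (hZd s).differentiableAt (hZd s).differentiableAt).congr_deriv ?_
        rw [hcov]
        simp
      have h2 := is_const_of_deriv_eq_zero (fun s => (hconst s).differentiableAt)
        (fun s => (hconst s).deriv) t 0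
      simp only [hP0, F.jac_vel_zero] at h2
      have h3 : M.g (c t) (P t v₀ - F.vel t x v₀) (P t v₀ - F.vel t x v₀) = 0 := by
        rw [h2]; simp
      exact sub_eq_zero.1 (h.eq_zero (mem_univ _) h3)
    rw [hQ, ← hv₀, hvel, velF]
    congr 2
    simp only [exF, map_smul]
    rfl
  · intro y y' t hy
    have e1 : (fun s => frA e (c s) (Q s (y s))) = fun s => P s (frA e x (y s)) := by
      funext s
      exact hQΦ s (y s)
    rw [e1, hQΦ]
    have hPd2 : HasDerivAt P (deriv P t) t := (hP.differentiable (by simp) t).hasDerivAt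
    have h1 : HasDerivAt (fun s => frA e x (y s)) (frA e x y') t :=
      (frA e x).hasFDerivAt.comp_hasDerivAt t hy
    have h2 := hPd2.clm_apply h1
    have h3 : deriv P t (frA e x (y t)) = -chris M.g (c t) (deriv c t) (P t (frA e x (y t))) := by
      rw [← hPd']
      have h4 := hPd2.clm_apply (hasDerivAt_const t (frA e x (y t)))
      rw [h4.deriv]
      simp
    unfold covD
    rw [h2.deriv, h3]
    abel

/-- the Jacobi operator in the parallel frame, and Jacobi fields -/
theorem cn_core (he : TriangularFrame M e)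
    (hsec : ∀ x u v, M.g x (curv M.g x u v v) u ≤ -(M.g x u u * M.g x v v - M.g x u v ^ 2))
    (x u : E n) (hu : ‖u‖ = 1) :
    ∃ (Q : ℝ → E n ≃ₗᵢ[ℝ] E n) (R : ℝ → E n →L[ℝ] E n),
      ContDiff ℝ ∞ (fun t => ((Q t : E n ≃L[ℝ] E n) : E n →L[ℝ] E n)) ∧
      (∀ w, Q 0 w = w) ∧ (∀ t, Q t u = velF F e t x u) ∧
      Continuous R ∧ (∀ t a b, inner ℝ (R t a) b = inner ℝ a (R t b)) ∧
      (∀ t a, inner ℝ (R t a) u = 0) ∧
      (∀ t w, inner ℝ w u = 0 → ‖w‖ ^ 2 ≤ inner ℝ (R t w) w) ∧
      ∀ J : ℝ → E n →L[ℝ] E n, ContDiff ℝ ∞ J →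
        (∀ t w, covD M.g (F.jacC x (frA e x u)) (covD M.g (F.jacC x (frA e x u))
          (fun s => J s w)) t + curv M.g (F.jacC x (frA e x u) t) (J t w)
            (F.vel t x (frA e x u)) (F.vel t x (frA e x u)) = 0) →
        ∃ T T' : ℝ → E n →L[ℝ] E n, (∀ t, HasDerivAt T (T' t) t) ∧
          (∀ t, HasDerivAt T' ((R t).comp (T t)) t) ∧
          (∀ t w, frA e (F.jacC x (frA e x u) t) (Q t (T t w)) = J t w) ∧
          ∀ t w, frA e (F.jacC x (frA e x u) t) (Q t (T' t w)) =
            covD M.g (F.jacC x (frA e x u)) (fun s => J s w) t := by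
  have h : IsMetricOn M.g univ := isMetricOn M
  obtain ⟨Q, hQs, hQ0, hQu, hQc⟩ := cn_frame F he x u
  set v₀ := frA e x u with hv₀
  set c := F.jacC x v₀ with hc
  have hcs : ContDiff ℝ ∞ c :=
    (F.jac_ex_contDiff x).comp (contDiff_id.smul contDiff_const)
  have hcv : ∀ t, exF F e x (t • u) = c t := by
    intro t
    rw [exF, map_smul]
    rfl
  have hvel : ∀ t, F.vel t x v₀ = frA e (c t) (Q t u) := by
    intro t
    rw [hQu, ← hcv, frA_velF F he]
  have hvc : Continuous fun t => F.vel t x v₀ := by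
    have h1 : ContDiff ℝ ∞ fun t : ℝ => ((t, x, v₀) : ℝ × E n × E n) :=
      contDiff_id.prodMk contDiff_const
    exact (F.vel_smooth.comp h1).continuous
  -- the operator
  let Ψ : ℝ → E n →L[ℝ] E n := fun t =>
    (ContinuousLinearMap.adjoint ((Q t : E n ≃L[ℝ] E n) : E n →L[ℝ] E n)).comp (frB M e (c t))
  have hΨs : ContDiff ℝ ∞ Ψ := by
    refine ContDiff.clm_comp ?_ ((frB_smooth he).comp hcs)
    exact (ContinuousLinearMap.adjoint (𝕜 := ℝ) (E := E n) (F := E n)).toContinuousLinearEquiv.contDiff.comp hQs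
  have hadj : ∀ t a b, inner ℝ (ContinuousLinearMap.adjoint
      ((Q t : E n ≃L[ℝ] E n) : E n →L[ℝ] E n) a) b = inner ℝ a (Q t b) := by
    intro t a b
    rw [ContinuousLinearMap.adjoint_inner_left]
    rfl
  have hΨ : ∀ t a b, inner ℝ (Ψ t a) b = M.g (c t) a (frA e (c t) (Q t b)) := by
    intro t a b
    change inner ℝ (ContinuousLinearMap.adjoint
      ((Q t : E n ≃L[ℝ] E n) : E n →L[ℝ] E n) (frB M e (c t) a)) b = _
    rw [hadj, ← g_frA he (c t), frA_frB he]
  have hΨΦ : ∀ t a, Ψ t (frA e (c t) (Q t a)) = a := by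
    intro t a
    refine ext_inner_right ℝ fun b => ?_
    rw [hΨ, g_frA he, LinearIsometryEquiv.inner_map_map]
  have hΦΨ : ∀ t a, frA e (c t) (Q t (Ψ t a)) = a := by
    intro t a
    refine h.ext (mem_univ (c t)) fun z => ?_
    have hz : z = frA e (c t) (Q t (Ψ t z)) := by
      have h1 : frA e (c t) (Q t ((Q t).symm (frB M e (c t) z))) = z := by
        rw [LinearIsometryEquiv.apply_symm_apply, frA_frB he]
      rw [← h1, hΨΦ]
    rw [hz, g_frA he, LinearIsometryEquiv.inner_map_map, hΨ, ← hz]
  let R : ℝ → E n →L[ℝ] E n := fun t =>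
    -((Ψ t).comp ((cn_op M.g (c t) (F.vel t x v₀)).comp
      ((frA e (c t)).comp ((Q t : E n ≃L[ℝ] E n) : E n →L[ℝ] E n))))
  have hR : ∀ t a, R t a = -Ψ t (curv M.g (c t) (frA e (c t) (Q t a)) (F.vel t x v₀)
      (F.vel t x v₀)) := by
    intro t a
    rw [← cn_op_apply h]
    rfl
  have hRin : ∀ t a b, inner ℝ (R t a) b = -M.g (c t) (curv M.g (c t) (frA e (c t) (Q t a))
      (F.vel t x v₀) (F.vel t x v₀)) (frA e (c t) (Q t b)) := by
    intro t a b
    rw [hR, inner_neg_left, hΨ]
  refine ⟨Q, R, hQs, hQ0, hQu, ?_, ?_, ?_, ?_, ?_⟩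
  · have hop : Continuous fun t => cn_op M.g (c t) (F.vel t x v₀) :=
      continuous_clm_apply.2 fun a => cn_op_continuous h hcs.continuous hvc a
    have hfr : Continuous fun t => frA e (c t) := (frA_smooth he).continuous.comp hcs.continuous
    exact (hΨs.continuous.clm_comp (hop.clm_comp (hfr.clm_comp hQs.continuous))).neg
  · intro t a b
    rw [hRin, real_inner_comm, hRin, curv_jacobi_symm h]
  · intro t a
    rw [hRin, ← hvel, h.curv_skew (mem_univ _), neg_zero]
  · intro t w hw
    rw [hRin]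
    have h1 := hsec (c t) (frA e (c t) (Q t w)) (F.vel t x v₀)
    rw [hvel t, g_frA_self he, g_frA_self he, g_frA he, LinearIsometryEquiv.inner_map_map,
      LinearIsometryEquiv.norm_map, LinearIsometryEquiv.norm_map, hu, hw] at h1
    rw [hvel t]
    linarith
  · intro J hJ hJac
    have hTs : ContDiff ℝ ∞ fun t => (Ψ t).comp (J t) := hΨs.clm_comp hJ
    set T : ℝ → E n →L[ℝ] E n := fun t => (Ψ t).comp (J t) with hT
    have hTd : ∀ t, HasDerivAt T (deriv T t) t := fun t =>
      (hTs.differentiable (by simp) t).hasDerivAt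
    have hTs' : ContDiff ℝ ∞ (deriv T) := by
      have h1 : ContDiff ℝ (∞ + 1) T := by simpa using hTs
      exact (contDiff_succ_iff_deriv.1 h1).2.2
    have hTd' : ∀ t, HasDerivAt (deriv T) (deriv (deriv T) t) t := fun t =>
      (hTs'.differentiable (by simp) t).hasDerivAt
    have hTJ : ∀ t w, frA e (c t) (Q t (T t w)) = J t w := fun t w => hΦΨ t (J t w)
    have hcov1 : ∀ t w, covD M.g c (fun s => J s w) t = frA e (c t) (Q t (deriv T t w)) := by
      intro t w
      have h1 := hQc (fun s => T s w) (deriv T t w) t (by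
        have := (hTd t).clm_apply (hasDerivAt_const t w)
        simpa using this)
      have h2 : (fun s => frA e (c s) (Q s (T s w))) = fun s => J s w := by
        funext s
        exact hTJ s w
      rwa [h2] at h1
    have hcov2 : ∀ t w, covD M.g c (covD M.g c (fun s => J s w)) t =
        frA e (c t) (Q t (deriv (deriv T) t w)) := by
      intro t w
      have h1 := hQc (fun s => deriv T s w) (deriv (deriv T) t w) t (by
        have := (hTd' t).clm_apply (hasDerivAt_const t w)
        simpa using this)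
      have h2 : (fun s => frA e (c s) (Q s (deriv T s w))) = covD M.g c (fun s => J s w) := by
        funext s
        exact (hcov1 s w).symm
      rwa [h2] at h1
    refine ⟨T, deriv T, hTd, fun t => ?_, hTJ, fun t w => (hcov1 t w).symm⟩
    refine (hTd' t).congr_deriv ?_
    ext1 w
    have h1 := hJac t w
    rw [hcov2] at h1
    have h2 := congrArg (Ψ t) (eq_neg_of_add_eq_zero_left h1)
    rw [hΨΦ, map_neg] at h2
    have h3 := hR t (T t w)
    rw [hTJ] at h3
    exact h2.trans h3.symm

end Vale.Agent.P219.CH
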