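import Vale.Agent.P219.CHH.ToGeoH
import Vale.Agent.P219.CHH.CoScale
import Vale.Agent.P219.CH.CoFinal
import Vale.Agent.P219.TPH.BridgeH
import Vale.Agent.P219.TPH.FinalH
import Vale.Agent.P219.TPR.RigDomain

/-! # The isoperimetric inequality for `Sec ≤ κ < 0` from certificates -/

open MeasureTheory Set Filter Topology
open scoped ENNReal ContDiff

noncomputable section

namespace Vale.Agent.P219.CH

variable {n : ℕ}

theorem isopH_sn (r : ℝ) : sn √(-(-1)) r = TPH.sn 1 r := by
  unfold sn TPH.sn
  rw [neg_neg, Real.sqrt_one]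

theorem isopH_area (hn : 1 ≤ n) (r : ℝ) : modelArea n (-1) r = TPH.AR n 1 r := by
  unfold modelArea TPH.AR
  rw [TP.sig_eq hn, om_eq, isopH_sn]

theorem isopH_vol (hn : 1 ≤ n) (r : ℝ) : modelVol n (-1) r = TPH.VR n 1 r := by
  unfold modelVol TPH.VR
  rw [TP.sig_eq hn, om_eq]
  simp only [isopH_sn]

/-- The isoperimetric inequality from certificates, `κ = -1`. -/
theorem isopH_of_cert (hn : 2 ≤ n) (C : ∀ R : ℝ, 0 < R → Nonempty (TPH.CertH n 1 R))
    (M : RiemMetric n) (hc : GeoComplete M.g) (hs : SecLE M (-1)) : IsoperimetricIneq M (-1) := by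
  obtain ⟨e, he⟩ := exists_triangularFrame M
  obtain ⟨F⟩ := exists_gflow (isMetricOn M) hc
  have hn1 : 1 ≤ n := by omega
  have hs0 : SecLE M 0 := secLE_zero hs
  refine isop_of_liminf M e he (-1) hn fun D r A hr hV hA => ?_
  have hV0 : 0 ≤ modelVol n (-1) r := by
    rw [← hV]; exact integral_nonneg fun x => (volDensity_gt M e he x).le
  have hVr : riemVol M D.carrier = ENNReal.ofReal (modelVol n (-1) r) := by
    rw [riemVol_eq M e he, hV]
  obtain ⟨hvp, hlay⟩ := feps_vol M e he hs0 F hn D hV0 hVr
  set G := toGeo M e he hs0 F with hG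
  have hcurv : TPH.Curv G 1 := TPH.curv_of_geoH (toGeoH M e he hs F hn)
  have hε : ∀ k : ℕ, 0 < 1 / ((k : ℝ) + 1) := fun k => by positivity
  -- perimeter
  have hper : ∀ δ > 0, ∀ᶠ k : ℕ in atTop, G.per (Feps D (1 / (k + 1))) ≤ A + δ := by
    intro δ hδ
    filter_upwards [rd_seq.eventually (hA δ hδ)] with k hk
    unfold TP.Geo.per
    rw [hG, integral_vol he hs0 F]
    simp only [norm_D_eq he hs0 F]
    exact hk
  -- it suffices to treat smaller radii
  have hmain : ∀ r' : ℝ, 0 ≤ r' → r' < r → modelArea n (-1) r' ≤ A := by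
    intro r' hr' hlt
    refine le_of_forall_pos_le_add fun δ hδ => ?_
    have hlt' : modelVol n (-1) r' < modelVol n (-1) r :=
      modelVol_strictMonoOn n hn1 (-1) hr' hr.le hlt
    set η : ℝ := (modelVol n (-1) r - modelVol n (-1) r') / 2 with hη
    have hη0 : 0 < η := by rw [hη]; linarith
    obtain ⟨k, hk1, hk2, hk3⟩ := ((hper δ hδ).and ((hlay η hη0).and
      (hvp.eventually (lt_mem_nhds (show modelVol n (-1) r - η < modelVol n (-1) r by
        linarith))))).exists
    set h : E n → ℝ := Feps D (1 / ((k : ℝ) + 1)) with hh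
    have hh1 : ContDiff ℝ 1 h := (Feps_smooth D _).of_le (by simp)
    have hcs : HasCompactSupport h := Feps_compact D (hε k)
    have h01 : ∀ x, 0 ≤ h x ∧ h x ≤ 1 := fun x => ⟨Feps_nonneg D _ x, Feps_le_one D _ x⟩
    refine le_trans ?_ hk1
    rw [isopH_area hn1]
    refine TPH.isop hn zero_le_one G hcurv C hh1 hcs h01 hr' ?_
    rw [← isopH_vol hn1]
    -- `vp h ≤ vol {h = 1} + vol {0 < h < 1}`
    have hvp1 : G.vp h ≤ G.vol.real {x | h x = 1} + G.vol.real {x | 0 < h x ∧ h x < 1} := by
      have hp0 : (0 : ℝ) < (n : ℝ) / (n - 1) := by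
        have : (2 : ℝ) ≤ n := by exact_mod_cast hn
        exact div_pos (by linarith) (by linarith)
      have hm1 : MeasurableSet {x | h x = 1} :=
        (isClosed_eq hh1.continuous continuous_const).measurableSet
      have hm2 : MeasurableSet {x | 0 < h x ∧ h x < 1} :=
        ((isOpen_lt continuous_const hh1.continuous).inter
          (isOpen_lt hh1.continuous continuous_const)).measurableSet
      have hK : G.vol (tsupport h) < ⊤ := hcs.isCompact.measure_lt_top
      have hf1 : G.vol {x | h x = 1} ≠ ⊤ := by
        refine ((measure_mono fun x hx => ?_).trans_lt hK).ne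
        refine subset_tsupport h ?_
        have : h x = 1 := hx
        rw [Function.mem_support, this]
        exact one_ne_zero
      have hf2 : G.vol {x | 0 < h x ∧ h x < 1} ≠ ⊤ := by
        refine ((measure_mono fun x hx => ?_).trans_lt hK).ne
        exact subset_tsupport h (Function.mem_support.2 hx.1.ne')
      unfold TP.Geo.vp
      rw [← integral_indicator_one hm1, ← integral_indicator_one hm2, ← integral_add]
      · refine integral_mono_of_nonneg (Eventually.of_forall fun x => ?_) ?_
          (Eventually.of_forall fun x => ?_)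
        · exact Real.rpow_nonneg (h01 x).1 _
        · exact ((integrable_indicator_iff hm1).2 (integrableOn_const hf1)).add
            ((integrable_indicator_iff hm2).2 (integrableOn_const hf2))
        · obtain ⟨h0, h1⟩ := h01 x
          rcases h0.eq_or_lt with h0 | h0
          · simp only [← h0, Real.zero_rpow hp0.ne']
            exact add_nonneg (indicator_nonneg (fun _ _ => zero_le_one) _)
              (indicator_nonneg (fun _ _ => zero_le_one) _)
          · rcases h1.eq_or_lt with h1 | h1
            · have : x ∈ {x | h x = 1} := h1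
              simp only [indicator_of_mem this, h1, Real.one_rpow, Pi.one_apply]
              exact le_add_of_nonneg_right (indicator_nonneg (fun _ _ => zero_le_one) _)
            · have : x ∈ {x | 0 < h x ∧ h x < 1} := ⟨h0, h1⟩
              simp only [indicator_of_mem this, Pi.one_apply]
              refine le_add_of_nonneg_of_le (indicator_nonneg (fun _ _ => zero_le_one) _) ?_
              exact Real.rpow_le_one h0.le h1.le hp0.le
      · exact (integrable_indicator_iff hm1).2 (integrableOn_const hf1)
      · exact (integrable_indicator_iff hm2).2 (integrableOn_const hf2)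
    linarith
  have hcont := (modelArea_continuous n (-1)).continuousAt (x := r)
  refine le_of_tendsto (hcont.tendsto.mono_left (nhdsWithin_le_nhds (s := Iio r))) ?_
  filter_upwards [Ioo_mem_nhdsLT hr] with r' hr'
  exact hmain r' hr'.1.le hr'.2

end Vale.Agent.P219.CH

namespace Vale.Agent.P219.Co

/-- The isoperimetric inequality for `Sec ≤ κ < 0` from certificates. -/
theorem isopH_of_cert {n : ℕ} (hn : 2 ≤ n) (C : ∀ R : ℝ, 0 < R → Nonempty (TPH.CertH n 1 R))
    (M : RiemMetric n) (hc : GeodesicallyComplete M) {κ : ℝ} (hκ : κ < 0) (hs : SecLE M κ) :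
    IsoperimetricIneq M κ := by
  refine isop_of_scale (by omega) hκ ?_
  set M' := scale M (-κ) (neg_pos.2 hκ) with hM'
  obtain ⟨e, he⟩ := CH.exists_triangularFrame (old M')
  have h := CH.isopH_of_cert hn C (old M') (geoComplete_old (scale_complete _ hc))
    (secLE_old_of_frame ⟨e, he⟩ (scale_sec hκ hs))
  exact isop_old (frame_of_old he) h

end Vale.Agent.P219.Co
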