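import Mathlib

/-! # Linear algebra for the two-ended comparison -/

open Set

namespace Vale.Agent.P219.CH

variable {W : Type} [NormedAddCommGroup W] [InnerProductSpace ℝ W] [FiniteDimensional ℝ W]

theorem linw_sum_le {ι : Type} (s : Finset ι) (σ : ι → ℝ) (h0 : ∀ i ∈ s, 0 ≤ σ i)
    (h1 : ∀ i ∈ s, σ i ≤ 1) :
    ∑ i ∈ s, σ i + 1 ≤ s.card + ∏ i ∈ s, σ i := by
  classical
  induction s using Finset.induction_on with
  | empty => simp
  | insert a s ha ih =>
    have ih' := ih (fun i hi => h0 i (Finset.mem_insert_of_mem hi))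
      (fun i hi => h1 i (Finset.mem_insert_of_mem hi))
    rw [Finset.sum_insert ha, Finset.prod_insert ha, Finset.card_insert_of_notMem ha]
    have ha0 := h0 a (Finset.mem_insert_self a s)
    have ha1 := h1 a (Finset.mem_insert_self a s)
    have hp1 : ∏ i ∈ s, σ i ≤ 1 :=
      Finset.prod_le_one (fun i hi => h0 i (Finset.mem_insert_of_mem hi))
        (fun i hi => h1 i (Finset.mem_insert_of_mem hi))
    push_cast
    nlinarith

/-- PROOF: `e_i` an orthonormal eigenbasis of `BᵀB`, `σ_i = ‖B e_i‖ ≤ 1`, `|det B| = ∏ σ_i`,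
`tr B = ∑ ⟨B e_i, e_i⟩ ≤ ∑ σ_i ≤ m - 1 + ∏ σ_i`. -/
theorem trace_le_of_contraction {B : W →L[ℝ] W} (hB : ∀ w, ‖B w‖ ≤ ‖w‖)
    (hW : 1 ≤ Module.finrank ℝ W) :
    LinearMap.trace ℝ W B.toLinearMap ≤ Module.finrank ℝ W - 1 + |B.det| := by
  set L : W →ₗ[ℝ] W := B.toLinearMap with hL
  set A : W →ₗ[ℝ] W := L.adjoint ∘ₗ L with hA
  have hAs : A.IsSymmetric := by
    intro x y
    simp only [hA, LinearMap.comp_apply]
    rw [LinearMap.adjoint_inner_left, LinearMap.adjoint_inner_right]
  set m := Module.finrank ℝ W with hm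
  set b := hAs.eigenvectorBasis hm.symm with hb
  have hlam : ∀ i, hAs.eigenvalues hm.symm i = ‖B (b i)‖ ^ 2 := by
    intro i
    have h1 : inner ℝ (b i) (A (b i)) = hAs.eigenvalues hm.symm i := by
      rw [hb, LinearMap.IsSymmetric.apply_eigenvectorBasis, inner_smul_right,
        real_inner_self_eq_norm_sq, OrthonormalBasis.norm_eq_one]
      simp
    rw [← h1]
    simp only [hA, LinearMap.comp_apply]
    rw [LinearMap.adjoint_inner_right, real_inner_self_eq_norm_sq]
    rfl
  have hdet : |B.det| = ∏ i, ‖B (b i)‖ := by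
    have h1 : L.det ^ 2 = (∏ i, ‖B (b i)‖) ^ 2 := by
      have h2 : A.det = L.adjoint.det * L.det := LinearMap.det_comp _ _
      have h3 : L.adjoint.det = L.det := by
        rw [← LinearMap.det_toMatrix b.toBasis, ← LinearMap.det_toMatrix b.toBasis,
          LinearMap.toMatrix_adjoint b b]
        simp [Matrix.det_conjTranspose]
      have h4 := hAs.det_eq_prod_eigenvalues hm.symm
      rw [h3] at h2
      rw [sq, ← h2, h4, ← Finset.prod_pow]
      exact Finset.prod_congr rfl fun i _ => hlam i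
    have h5 : |L.det| = |∏ i, ‖B (b i)‖| := (sq_eq_sq_iff_abs_eq_abs _ _).1 h1
    rw [abs_of_nonneg (Finset.prod_nonneg fun i _ => norm_nonneg _)] at h5
    exact h5
  have htr : LinearMap.trace ℝ W L ≤ ∑ i, ‖B (b i)‖ := by
    rw [LinearMap.trace_eq_sum_inner L b]
    refine Finset.sum_le_sum fun i _ => ?_
    refine (real_inner_le_norm _ _).trans ?_
    rw [OrthonormalBasis.norm_eq_one, one_mul]
    rfl
  have hsum := linw_sum_le Finset.univ (fun i => ‖B (b i)‖) (fun i _ => norm_nonneg _)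
    (fun i _ => by
      have := hB (b i)
      rwa [OrthonormalBasis.norm_eq_one] at this)
  rw [Finset.card_univ, Fintype.card_fin] at hsum
  rw [hdet]
  linarith

end Vale.Agent.P219.CH
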