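import Mathlib

/-! # Linear differential equations on the whole line -/

open Set
open scoped ContDiff

set_option linter.unusedSectionVars false

namespace Vale.Agent.P219.CH

variable {W : Type} [NormedAddCommGroup W] [NormedSpace ℝ W] [CompleteSpace W]

/-- The terms of the Volterra series. -/
noncomputable def OdeVol (A : ℝ → W →L[ℝ] W) : ℕ → ℝ → W →L[ℝ] W
  | 0 => fun _ => ContinuousLinearMap.id ℝ W
  | n + 1 => fun t => ∫ s in (0 : ℝ)..t, (A s).comp (OdeVol A n s)

theorem Ode_cont {A : ℝ → W →L[ℝ] W} (hA : Continuous A) (n : ℕ) : Continuous (OdeVol A n) := by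
  induction n with
  | zero => exact continuous_const
  | succ n ih =>
    exact intervalIntegral.continuous_primitive
      (fun a b => (hA.clm_comp ih).intervalIntegrable a b) 0

theorem Ode_deriv {A : ℝ → W →L[ℝ] W} (hA : Continuous A) (n : ℕ) (t : ℝ) :
    HasDerivAt (OdeVol A (n + 1)) ((A t).comp (OdeVol A n t)) t := by
  have hc : Continuous fun s => (A s).comp (OdeVol A n s) := hA.clm_comp (Ode_cont hA n)
  exact intervalIntegral.integral_hasDerivAt_right (hc.intervalIntegrable 0 t)
    (hc.stronglyMeasurableAtFilter _ _) hc.continuousAt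

theorem Ode_bound {A : ℝ → W →L[ℝ] W} (hA : Continuous A) {T M : ℝ}
    (hM : ∀ s, |s| ≤ T → ‖A s‖ ≤ M) (n : ℕ) (t : ℝ) (ht : |t| ≤ T) :
    ‖OdeVol A n t‖ ≤ M ^ n * |t| ^ n / n.factorial := by
  induction n generalizing t with
  | zero => simpa [OdeVol] using ContinuousLinearMap.norm_id_le (𝕜 := ℝ) (E := W)
  | succ n ih =>
    have hM0 : 0 ≤ M := (norm_nonneg _).trans (hM t ht)
    have hc : Continuous fun s => (A s).comp (OdeVol A n s) := hA.clm_comp (Ode_cont hA n)
    have h1 : ‖OdeVol A (n + 1) t‖ ≤ ∫ s in uIoc (0 : ℝ) t, ‖(A s).comp (OdeVol A n s)‖ :=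
      intervalIntegral.norm_integral_le_integral_norm_uIoc
    have h2 : ∫ s in uIoc (0 : ℝ) t, ‖(A s).comp (OdeVol A n s)‖ ≤
        ∫ s in uIoc (0 : ℝ) t, M ^ (n + 1) / n.factorial * |s - 0| ^ n := by
      refine MeasureTheory.setIntegral_mono_on ?_ ?_ measurableSet_uIoc fun s hs => ?_
      · exact (hc.norm.intervalIntegrable 0 t).def'
      · have : Continuous fun s : ℝ => M ^ (n + 1) / n.factorial * |s - 0| ^ n := by fun_prop
        exact (this.intervalIntegrable 0 t).def'
      · have hs' : |s| ≤ |t| := by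
          have := Set.abs_sub_left_of_mem_uIcc (uIoc_subset_uIcc hs)
          simpa using this
        calc ‖(A s).comp (OdeVol A n s)‖ ≤ ‖A s‖ * ‖OdeVol A n s‖ :=
              ContinuousLinearMap.opNorm_comp_le _ _
          _ ≤ M * (M ^ n * |s| ^ n / n.factorial) :=
              mul_le_mul (hM s (hs'.trans ht)) (ih s (hs'.trans ht)) (norm_nonneg _) hM0
          _ = M ^ (n + 1) / n.factorial * |s - 0| ^ n := by
              rw [sub_zero]
              ring
    have h3 : ∫ s in uIoc (0 : ℝ) t, M ^ (n + 1) / n.factorial * |s - 0| ^ n =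
        M ^ (n + 1) * |t| ^ (n + 1) / (n + 1).factorial := by
      rw [MeasureTheory.integral_const_mul, integral_pow_abs_sub_uIoc, sub_zero,
        Nat.factorial_succ]
      push_cast
      have : (n.factorial : ℝ) ≠ 0 := by positivity
      field_simp
    exact (h1.trans h2).trans h3.le

/-- The fundamental solution of `P' = A P`. -/
theorem exists_fundamental {A : ℝ → W →L[ℝ] W} (hA : ContDiff ℝ ∞ A) :
    ∃ P : ℝ → W →L[ℝ] W, ContDiff ℝ ∞ P ∧ P 0 = ContinuousLinearMap.id ℝ W ∧
      ∀ t, HasDerivAt P ((A t).comp (P t)) t := by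
  have hc := hA.continuous
  have hbd : ∀ T : ℝ, ∃ M : ℝ, 0 ≤ M ∧ ∀ s, |s| ≤ T → ‖A s‖ ≤ M := by
    intro T
    obtain ⟨M, hM⟩ := (isCompact_Icc (a := -T) (b := T)).exists_bound_of_continuousOn
      hc.continuousOn
    exact ⟨max M 0, le_max_right _ _, fun s hs => (hM s (abs_le.1 hs)).trans (le_max_left _ _)⟩
  have hsum : ∀ (M T : ℝ), Summable fun n : ℕ => M ^ n * T ^ n / n.factorial := by
    intro M T
    have := Real.summable_pow_div_factorial (M * T)
    simpa [mul_pow] using this
  have hs : ∀ t, Summable fun n => OdeVol A n t := by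
    intro t
    obtain ⟨M, -, hM⟩ := hbd |t|
    exact Summable.of_norm_bounded (hsum M |t|) fun n => Ode_bound hc hM n t le_rfl
  have hd : ∀ t, HasDerivAt (fun z => ∑' n, OdeVol A n z) ((A t).comp (∑' n, OdeVol A n t)) t := by
    intro t
    obtain ⟨M, hM0, hM⟩ := hbd (|t| + 1)
    set g' : ℕ → ℝ → W →L[ℝ] W := fun n y => match n with
      | 0 => 0
      | n + 1 => (A y).comp (OdeVol A n y) with hg'
    have hu : Summable fun n : ℕ => match n with
      | 0 => (0 : ℝ)
      | n + 1 => M * (M ^ n * (|t| + 1) ^ n / n.factorial) := by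
      rw [← summable_nat_add_iff 1]
      exact (hsum M (|t| + 1)).mul_left M
    have h1 := hasDerivAt_tsum_of_isPreconnected (g := OdeVol A) (g' := g') (y := t) (y₀ := t)
      (t := Ioo (-(|t| + 1)) (|t| + 1)) hu isOpen_Ioo isPreconnected_Ioo ?_ ?_ ?_ (hs t) ?_
    · have h2 : Summable fun n => g' n t := by
        rw [← summable_nat_add_iff 1]
        exact ((ContinuousLinearMap.compL ℝ W W W (A t)).summable (hs t))
      refine h1.congr_deriv ?_
      rw [h2.tsum_eq_zero_add]
      simp only [hg', zero_add]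
      exact ((ContinuousLinearMap.compL ℝ W W W (A t)).map_tsum (hs t)).symm
    · intro n y _
      cases n with
      | zero => exact hasDerivAt_const y _
      | succ n => exact Ode_deriv hc n y
    · intro n y hy
      have hy' : |y| ≤ |t| + 1 := abs_le.2 ⟨hy.1.le, hy.2.le⟩
      cases n with
      | zero => simp [hg']
      | succ n =>
        refine (ContinuousLinearMap.opNorm_comp_le _ _).trans ?_
        refine mul_le_mul (hM y hy') ((Ode_bound hc hM n y hy').trans ?_) (norm_nonneg _) hM0
        gcongr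
    · exact ⟨by linarith [neg_abs_le t], by linarith [le_abs_self t]⟩
    · exact ⟨by linarith [neg_abs_le t], by linarith [le_abs_self t]⟩
  refine ⟨fun t => ∑' n, OdeVol A n t, ?_, ?_, hd⟩
  · rw [contDiff_infty]
    intro m
    induction m with
    | zero =>
      exact contDiff_zero.2 (continuous_iff_continuousAt.2 fun t => (hd t).continuousAt)
    | succ m ih =>
      push_cast
      rw [contDiff_succ_iff_deriv]
      refine ⟨fun t => (hd t).differentiableAt, by simp, ?_⟩
      have : deriv (fun z => ∑' n, OdeVol A n z) = fun t => (A t).comp (∑' n, OdeVol A n t) :=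
        funext fun t => (hd t).deriv
      rw [this]
      exact (hA.of_le (by exact_mod_cast le_top)).clm_comp ih
  · have h0 : ∀ n, OdeVol A (n + 1) 0 = 0 := fun n => by simp [OdeVol]
    show ∑' n, OdeVol A n 0 = _
    rw [(hs 0).tsum_eq_zero_add]
    simp only [h0, tsum_zero, add_zero]
    rfl

end Vale.Agent.P219.CH
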