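import Vale.Agent.P219.CHH.Ode
import Vale.Agent.P219.CH.Jacobi

/-! # Parallel transport along a curve -/

open Set Filter Topology
open scoped ContDiff
open Vale.Agent.P255

noncomputable section

namespace Vale.Agent.P219.CH

variable {V : Type} [NormedAddCommGroup V] [NormedSpace ℝ V] [FiniteDimensional ℝ V]
variable {G : V → V →L[ℝ] V →L[ℝ] ℝ}

/-- parallel transport along `c` from `c 0` -/
theorem exists_parallel (h : IsMetricOn G univ) {c : ℝ → V} (hc : ContDiff ℝ ∞ c) :
    ∃ P : ℝ → V →L[ℝ] V, ContDiff ℝ ∞ P ∧ P 0 = ContinuousLinearMap.id ℝ V ∧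
      (∀ t w, covD G c (fun s => P s w) t = 0) ∧
      ∀ t u w, G (c t) (P t u) (P t w) = G (c 0) u w := by
  have : CompleteSpace V := FiniteDimensional.complete ℝ V
  have hc' : ContDiff ℝ ∞ (deriv c) := by
    have h1 : ContDiff ℝ (∞ + 1) c := by simpa using hc
    exact (contDiff_succ_iff_deriv.1 h1).2.2
  have hB : ContDiff ℝ ∞ (fun t => chrisB G (c t)) :=
    contDiff_iff_contDiffAt.2 fun t => (h.contDiffAt_chrisB (mem_univ _)).comp t hc.contDiffAt
  have hA : ContDiff ℝ ∞ (fun t => -(chrisB G (c t) (deriv c t))) := (hB.clm_apply hc').neg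
  obtain ⟨P, hP, hP0, hPd⟩ := exists_fundamental hA
  have hPw : ∀ w t, HasDerivAt (fun s => P s w) (-(chrisB G (c t) (deriv c t) (P t w))) t := by
    intro w t
    have h1 := (hPd t).clm_apply (hasDerivAt_const t w)
    refine h1.congr_deriv ?_
    simp
  have hcov : ∀ t w, covD G c (fun s => P s w) t = 0 := by
    intro t w
    unfold covD
    rw [(hPw w t).deriv, ← chrisB_apply]
    simp
  refine ⟨P, hP, hP0, hcov, fun t u w => ?_⟩
  have hd : ∀ s, HasDerivAt (fun s => G (c s) (P s u) (P s w)) 0 s := by
    intro s
    have h1 := h.hasDerivAt_inner (c := c) (X := fun s => P s u) (Y := fun s => P s w)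
      (mem_univ _) (hc.differentiable (by simp) s) (hPw u s).differentiableAt
      (hPw w s).differentiableAt
    refine h1.congr_deriv ?_
    rw [hcov, hcov]
    simp
  have h2 := is_const_of_deriv_eq_zero (fun s => (hd s).differentiableAt)
    (fun s => (hd s).deriv) t 0
  simpa [hP0] using h2

/-- first Bianchi identity -/
theorem curv_bianchi1 (h : IsMetricOn G univ) (x u v w : V) :
    curv G x u v w + curv G x v w u + curv G x w u v = 0 := by
  have hs : ∀ a b c, fderiv ℝ (chrisB G) x a b c = fderiv ℝ (chrisB G) x a c b := by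
    intro a b c
    rw [← h.fderiv_chris (mem_univ _), ← h.fderiv_chris (mem_univ _)]
    have : (fun p => chris G p b c) = fun p => chris G p c b :=
      funext fun p => h.chris_symm (mem_univ _) b c
    rw [this]
  have hb : ∀ a b, chrisB G x a b = chrisB G x b a := by
    intro a b
    rw [chrisB_apply, chrisB_apply, h.chris_symm (mem_univ _)]
  rw [h.curv_eq (mem_univ _), h.curv_eq (mem_univ _), h.curv_eq (mem_univ _),
    hs u v w, hs v w u, hs w u v, hb v w, hb w u, hb u v]
  abel

/-- pair symmetry of the curvature tensor -/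
theorem curv_pair_symm (h : IsMetricOn G univ) (x a b c e : V) :
    G x (curv G x a b c) e = G x (curv G x c e a) b := by
  have anti1 : ∀ a b c, curv G x b a c = - curv G x a b c := by
    intro a b c
    rw [h.curv_eq (mem_univ _), h.curv_eq (mem_univ _)]
    abel
  have A1 : ∀ a b c e, G x (curv G x b a c) e = - G x (curv G x a b c) e := by
    intro a b c e
    rw [anti1 a b c]; simp
  have A2 : ∀ a b c e, G x (curv G x a b e) c = - G x (curv G x a b c) e := by
    intro a b c e
    rw [h.curv_antisymm (mem_univ _) a b e c, h.symm x (mem_univ _)]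
  have B : ∀ a b c e, G x (curv G x a b c) e + G x (curv G x b c a) e +
      G x (curv G x c a b) e = 0 := by
    intro a b c e
    have := congrArg (fun z => G x z e) (curv_bianchi1 h x a b c)
    simpa using this
  have b1 := B a b c e
  have b2 := B b c e a
  have b3 := B c e a b
  have b4 := B e a b c
  have := A1 a b c e
  have := A2 b c a e
  have := A2 c e b a
  have := A2 e b a c
  have := A1 c a b e
  have := A2 a c b e
  have := A1 b c a e
  have := A1 e b c a
  have := A2 b e c a
  have := A1 b e c a
  have := A2 c b e a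
  have := A2 b c e a
  have := A1 e a b c
  have := A2 a e b c
  have := A2 e a c b
  have := A1 a e c b
  have := A2 c a e b
  have := A2 a c e b
  have := A1 a c e b
  have := A2 a b e c
  have := A2 c e a b
  have := A1 a c b e
  have := A2 b e a c
  have := A2 e c a b
  linarith

/-- symmetry of the Jacobi operator -/
theorem curv_jacobi_symm (h : IsMetricOn G univ) (x u v w : V) :
    G x (curv G x u v v) w = G x (curv G x w v v) u := by
  have anti1 : ∀ a b c, curv G x b a c = - curv G x a b c := by
    intro a b c
    rw [h.curv_eq (mem_univ _), h.curv_eq (mem_univ _)]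
    abel
  rw [curv_pair_symm h x u v v w, anti1 w v u, map_neg, neg_apply,
    h.curv_antisymm (mem_univ _) w v u v, neg_neg, h.symm x (mem_univ _)]

end Vale.Agent.P219.CH
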