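import Vale.Agent.P219.CHH.Conn
import Vale.Agent.P219.CH.ToGeo
import Mathlib.Analysis.InnerProductSpace.NormDet

/-! # The abstract geometry of a complete metric with `Sec ≤ -1` -/

open Set Filter Topology
open scoped ContDiff
open Vale.Agent.P255

noncomputable section

namespace Vale.Agent.P219.CH

variable {n : ℕ} {M : RiemMetric n} {e : Fin n → E n → E n}

theorem tgh_finrank {u : E n} (hu : ‖u‖ = 1) : Module.finrank ℝ (ℝ ∙ u)ᗮ = n - 1 := by
  have h0 : u ≠ 0 := by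
    rintro rfl
    simp at hu
  have h1 := (ℝ ∙ u).finrank_add_finrank_orthogonal
  rw [finrank_span_singleton h0, finrank_euclideanSpace_fin] at h1
  omega

theorem tgh_abs_det_isom (Q : E n ≃ₗᵢ[ℝ] E n) :
    |LinearMap.det (Q.toLinearEquiv : E n →ₗ[ℝ] E n)| = 1 := by
  rw [← LinearMap.normDet_eq_abs_det]
  exact Q.toLinearIsometry.normDet_eq_one

/-- block determinant -/
theorem tgh_det_block {u : E n} (L : E n →ₗ[ℝ] E n)
    (A : (ℝ ∙ u)ᗮ →ₗ[ℝ] (ℝ ∙ u)ᗮ) (hLu : L u = u) (hA : ∀ w : (ℝ ∙ u)ᗮ, L w = A w) :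
    LinearMap.det L = LinearMap.det A := by
  have hc : IsCompl (ℝ ∙ u) (ℝ ∙ u)ᗮ := Submodule.isCompl_orthogonal _
  set Φ := Submodule.prodEquivOfIsCompl _ _ hc with hΦ
  have h1 : L = Φ.toLinearMap ∘ₗ
      (LinearMap.prodMap (LinearMap.id : (ℝ ∙ u) →ₗ[ℝ] (ℝ ∙ u)) A) ∘ₗ Φ.symm.toLinearMap := by
    have h2 : L ∘ₗ Φ.toLinearMap =
        Φ.toLinearMap ∘ₗ (LinearMap.prodMap (LinearMap.id : (ℝ ∙ u) →ₗ[ℝ] (ℝ ∙ u)) A) := by
      refine LinearMap.ext fun p => ?_
      obtain ⟨⟨p1, hp1⟩, p2⟩ := p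
      obtain ⟨c, rfl⟩ := Submodule.mem_span_singleton.1 hp1
      simp only [LinearMap.comp_apply, LinearEquiv.coe_coe, hΦ,
        Submodule.coe_prodEquivOfIsCompl', LinearMap.prodMap_apply, LinearMap.id_apply, map_add,
        map_smul, hLu, hA]
    rw [← LinearMap.comp_assoc, ← h2, LinearMap.comp_assoc]
    refine LinearMap.ext fun x => ?_
    simp
  have h3 : LinearMap.det L = LinearMap.det (LinearMap.prodMap
      (LinearMap.id : (ℝ ∙ u) →ₗ[ℝ] (ℝ ∙ u)) A) := by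
    rw [h1]
    exact LinearMap.det_conj _ Φ
  rw [h3, LinearMap.det_prodMap, LinearMap.det_id, one_mul]

theorem tgh_det_main {u : E n} (hu : ‖u‖ = 1) {r : ℝ} (hr : 0 < r) (D : E n →L[ℝ] E n)
    (Q₁ Q₂ : E n ≃ₗᵢ[ℝ] E n) (A : (ℝ ∙ u)ᗮ →L[ℝ] (ℝ ∙ u)ᗮ) (hDu : D (Q₂ u) = Q₁ u)
    (hA : ∀ w : (ℝ ∙ u)ᗮ, Q₁ (A w) = r • D (Q₂ w)) :
    |D.det| * r ^ (n - 1) = |A.det| := by
  set L : E n →ₗ[ℝ] E n := (Q₁.symm.toLinearEquiv : E n →ₗ[ℝ] E n) ∘ₗ (D : E n →ₗ[ℝ] E n) ∘ₗ
    (Q₂.toLinearEquiv : E n →ₗ[ℝ] E n) with hL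
  have h1 : LinearMap.det L = LinearMap.det (r⁻¹ • (A : (ℝ ∙ u)ᗮ →ₗ[ℝ] (ℝ ∙ u)ᗮ)) := by
    refine tgh_det_block L _ ?_ ?_
    · simp only [hL, LinearMap.comp_apply]
      change Q₁.symm (D (Q₂ u)) = u
      rw [hDu, Q₁.symm_apply_apply]
    · intro w
      simp only [hL, LinearMap.comp_apply]
      change Q₁.symm (D (Q₂ w)) = ((r⁻¹ • (A w) : (ℝ ∙ u)ᗮ) : E n)
      have h2 : D (Q₂ w) = r⁻¹ • Q₁ (A w) := by
        rw [hA w, smul_smul, inv_mul_cancel₀ hr.ne', one_smul]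
      rw [h2, map_smul, Q₁.symm_apply_apply]
      rfl
  have h2 : |LinearMap.det L| = |D.det| := by
    rw [hL, LinearMap.det_comp, LinearMap.det_comp, abs_mul, abs_mul,
      tgh_abs_det_isom, tgh_abs_det_isom, one_mul, mul_one]
  rw [← h2, h1, LinearMap.det_smul, tgh_finrank hu, abs_mul, abs_pow, abs_inv, abs_of_pos hr]
  have h3 : r ^ (n - 1) ≠ 0 := pow_ne_zero _ hr.ne'
  rw [inv_pow]
  field_simp

theorem tgh_dexF_self (F : GFlow M.g) (x u : E n) (t : ℝ) :
    dexF M F e x (t • u) u = velF F e t x u := by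
  have h : IsMetricOn M.g univ := isMetricOn M
  simp only [dexF, ContinuousLinearMap.comp_apply, velF]
  rw [fderiv_exF, map_smul, F.fderiv_ray h]

/-- PROOF: `v = r u`, jt_mono, `Q` is an isometry: `t • dexF x (t u) w = Q t (A t w)`. -/
theorem toGeo_monoH (he : TriangularFrame M e) (hs : SecLE M (-1)) (F : GFlow M.g) (x v z : E n)
    (s : ℝ) (hz : inner ℝ v z = 0) (h0 : 0 ≤ s) (h1 : s ≤ 1) :
    s * Real.sinh ‖v‖ * ‖(toGeo M e he (secLE_zero hs) F).T x (s • v) z‖ ≤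
      Real.sinh (s * ‖v‖) * ‖(toGeo M e he (secLE_zero hs) F).T x v z‖ := by
  change s * Real.sinh ‖v‖ * ‖dexF M F e x (s • v) z‖ ≤
      Real.sinh (s * ‖v‖) * ‖dexF M F e x v z‖
  rcases eq_or_ne v 0 with rfl | hv
  · simp
  have hρ : 0 < ‖v‖ := norm_pos_iff.2 hv
  set ρ := ‖v‖ with hρd
  set u : E n := ρ⁻¹ • v with hu
  have hun : ‖u‖ = 1 := by
    rw [hu, norm_smul, norm_inv, Real.norm_of_nonneg hρ.le, ← hρd, inv_mul_cancel₀ hρ.ne']
  have hvu : v = ρ • u := by rw [hu, smul_smul, mul_inv_cancel₀ hρ.ne', one_smul]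
  have hzu : z ∈ (ℝ ∙ u)ᗮ := by
    rw [Submodule.mem_orthogonal_singleton_iff_inner_right, hu, inner_smul_left, hz, mul_zero]
  obtain ⟨R, A, A', B, B', Q, hJA, -, -, -, hR, hA0, hA1, -, -, -, hQA, -⟩ :=
    exists_JT F he hs x u hun 0
  have key := (jt_mono hJA hA0 hA1 hR ⟨z, hzu⟩ (s := s * ρ) (t := ρ) (by positivity)
    (by nlinarith)).1
  have hn : ∀ t : ℝ, 0 ≤ t → ‖A t ⟨z, hzu⟩‖ = t * ‖dexF M F e x (t • u) z‖ := by
    intro t ht
    have h2 : ‖A t ⟨z, hzu⟩‖ = ‖Q t (A t ⟨z, hzu⟩)‖ := by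
      rw [(Q t).norm_map]
      rfl
    rw [h2, hQA t ⟨z, hzu⟩, norm_smul, Real.norm_of_nonneg ht]
  rw [hn _ (by positivity), hn _ hρ.le] at key
  rw [hvu, smul_smul]
  have h3 : Real.sinh ρ * (s * ρ * ‖dexF M F e x ((s * ρ) • u) z‖) =
      ρ * (s * Real.sinh ρ * ‖dexF M F e x ((s * ρ) • u) z‖) := by ring
  have h4 : Real.sinh (s * ρ) * (ρ * ‖dexF M F e x (ρ • u) z‖) =
      ρ * (Real.sinh (s * ρ) * ‖dexF M F e x (ρ • u) z‖) := by ring
  rw [h3, h4] at key
  exact le_of_mul_le_mul_left key hρ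

/-- `|det T (r u)| = |det A(r)| / r^{n-1}` (T maps `u` to the velocity, `u^⊥` to its orthogonal
complement). -/
theorem det_dexF (he : TriangularFrame M e) (F : GFlow M.g) (x u : E n)
    (hu : ‖u‖ = 1) {r : ℝ} (hr : 0 < r) (A : (ℝ ∙ u)ᗮ →L[ℝ] (ℝ ∙ u)ᗮ) (Q : E n ≃ₗᵢ[ℝ] E n)
    (hQ : Q u = velF F e r x u)
    (hA : ∀ w : (ℝ ∙ u)ᗮ, Q (A w) = r • dexF M F e x (r • u) w) :
    |(dexF M F e x (r • u)).det| * r ^ (n - 1) = |A.det| := by
  refine tgh_det_main hu hr _ Q (LinearIsometryEquiv.refl ℝ _) A ?_ hA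
  rw [hQ]
  exact tgh_dexF_self F x u r

theorem tgh_dexF_inj (he : TriangularFrame M e) (hs : SecLE M 0) (F : GFlow M.g) (x v : E n) :
    (dexF M F e x v).det ≠ 0 := by
  have h1 : ∀ z, dexF M F e x v z = 0 → z = 0 := by
    intro z hz
    have h2 := norm_dexF_mono F he hs x v z (le_refl 0) zero_le_one
    rw [zero_smul, one_smul, dexF_zero F he, hz, norm_zero] at h2
    exact norm_le_zero_iff.1 h2
  intro h0
  obtain ⟨L, hL⟩ := hadamard_exists_equiv (dexF M F e x v) h1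
  rw [← hL] at h0
  have h3 : IsUnit (LinearMap.det (L.toLinearEquiv : E n →ₗ[ℝ] E n)) :=
    LinearEquiv.isUnit_det' L.toLinearEquiv
  exact h3.ne_zero h0

theorem tgh_det_eq (L : E n →L[ℝ] E n) :
    L.det = Matrix.det (Matrix.of fun i j : Fin n => (L (basisVec j)) i) := by
  rw [ContinuousLinearMap.det, ← LinearMap.det_toMatrix (EuclideanSpace.basisFun (Fin n) ℝ).toBasis]
  congr 1

theorem tgh_det_diff {f : E n → E n →L[ℝ] E n} (hf : Differentiable ℝ f) :
    Differentiable ℝ fun w => (f w).det := by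
  have h5 : ∀ i j : Fin n, Differentiable ℝ fun w => (f w (basisVec j)) i := by
    intro i j
    have h6 : Differentiable ℝ fun w => f w (basisVec j) :=
      hf.clm_apply (differentiable_const _)
    exact (EuclideanSpace.proj (𝕜 := ℝ) i).differentiable.comp h6
  have h7 : (fun w => (f w).det) = fun w => ∑ σ : Equiv.Perm (Fin n),
      ((Equiv.Perm.sign σ : ℤ) : ℝ) * ∏ i, (f w (basisVec i)) (σ i) := by
    funext w
    rw [tgh_det_eq, Matrix.det_apply']
    rfl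
  rw [h7]
  refine Differentiable.fun_sum fun σ _ => Differentiable.const_mul ?_ _
  intro w
  exact (HasFDerivAt.finsetProd (u := Finset.univ)
    (g := fun (i : Fin n) (w : E n) => (f w (basisVec i)) (σ i))
    fun i _ => (h5 (σ i) i w).hasFDerivAt).differentiableAt

theorem tgh_partial {f : E n → E n → E n →L[ℝ] E n}
    (hf : ContDiff ℝ ∞ fun q : E n × E n => f q.1 q.2) (x : E n) : Differentiable ℝ (f x) := by
  have h0 : Differentiable ℝ fun w : E n => (x, w) :=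
    (differentiable_const x).prodMk differentiable_id
  exact (hf.differentiable (by simp)).comp h0

theorem tgh_dexF_diff (he : TriangularFrame M e) (F : GFlow M.g) (x : E n) :
    Differentiable ℝ (dexF M F e x) :=
  tgh_partial (f := dexF M F e) (dexF_smooth F he) x

theorem tgh_log_diff (he : TriangularFrame M e) (hs : SecLE M 0) (F : GFlow M.g) (x v : E n) :
    DifferentiableAt ℝ (fun w => Real.log |(dexF M F e x w).det|) v := by
  have h2 : DifferentiableAt ℝ (fun w => (dexF M F e x w).det) v :=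
    tgh_det_diff (tgh_dexF_diff he F x) v
  have h3 := h2.log (tgh_dexF_inj he hs F x v)
  have h4 : (fun w => Real.log |(dexF M F e x w).det|) =
      fun w => Real.log (dexF M F e x w).det := funext fun w => Real.log_abs _
  rw [h4]
  exact h3

/-- the radial derivative of `log |det|` -/
theorem tgh_radial (he : TriangularFrame M e) (hs : SecLE M 0) (F : GFlow M.g) (x u : E n)
    (hu : ‖u‖ = 1) (hn : 2 ≤ n) {r d : ℝ} (hr : 0 < r) {D : ℝ → ℝ}
    (hD : ∀ t, 0 < t → |(dexF M F e x (t • u)).det| * t ^ (n - 1) = |D t|)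
    (hd : HasDerivAt (fun t => Real.log |D t|) d r) (v : E n) (hv : v = r • u) :
    fderiv ℝ (fun w => Real.log |(dexF M F e x w).det|) v (‖v‖⁻¹ • v) +
      ((n : ℝ) - 1) / ‖v‖ - ((n : ℝ) - 1) * TP.cth ‖v‖ = d - ((n : ℝ) - 1) * TP.cth r := by
  have hvn : ‖v‖ = r := by rw [hv, norm_smul, hu, mul_one, Real.norm_of_nonneg hr.le]
  have hvu : ‖v‖⁻¹ • v = u := by
    rw [hvn, hv, smul_smul, inv_mul_cancel₀ hr.ne', one_smul]
  rw [hvu, hvn]
  have hcast : ((n - 1 : ℕ) : ℝ) = (n : ℝ) - 1 := by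
    rw [Nat.cast_sub (by omega), Nat.cast_one]
  have h1 : HasDerivAt (fun t : ℝ => Real.log |(dexF M F e x (t • u)).det|)
      (fderiv ℝ (fun w => Real.log |(dexF M F e x w).det|) v u) r := by
    have h2 : HasDerivAt (fun s : ℝ => s • u) u r := by
      simpa using (hasDerivAt_id r).smul_const u
    have h3 := (tgh_log_diff he hs F x v).hasFDerivAt
    rw [hv] at h3 ⊢
    exact HasFDerivAt.comp_hasDerivAt (f := fun s : ℝ => s • u) r h3 h2
  have h4 : HasDerivAt (fun t : ℝ => Real.log |(dexF M F e x (t • u)).det|)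
      (d - ((n : ℝ) - 1) / r) r := by
    have h5 : HasDerivAt (fun t : ℝ => Real.log |D t| - ((n : ℝ) - 1) * Real.log t)
        (d - ((n : ℝ) - 1) * r⁻¹) r := hd.sub ((Real.hasDerivAt_log hr.ne').const_mul _)
    rw [div_eq_mul_inv]
    refine h5.congr_of_eventuallyEq ?_
    filter_upwards [lt_mem_nhds hr] with t ht
    have h6 := tgh_dexF_inj he hs F x (t • u)
    rw [← hD t ht, Real.log_mul (abs_ne_zero.2 h6) (pow_ne_zero _ ht.ne'), Real.log_pow, hcast]
    ring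
  rw [h1.unique h4]
  ring

/-- PROOF: jt_bonus, jt_log_det, det_dexF (for `t` near `r`, and for the reversed geodesic). -/
theorem toGeo_bonus (he : TriangularFrame M e) (hs : SecLE M (-1)) (F : GFlow M.g) (hn : 2 ≤ n)
    (x v : E n) (a b : ℝ) (hv : v ≠ 0) (ha : 0 ≤ a) (hb : 0 ≤ b) :
    2 * a * b / Real.sinh ‖v‖ * (1 - (Real.sinh ‖v‖ / ‖v‖) ^ (n - 1) /
        |((toGeo M e he (secLE_zero hs) F).T x v).det|) ≤
      b ^ 2 * (toGeo M e he (secLE_zero hs) F).tau x v +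
      a ^ 2 * (toGeo M e he (secLE_zero hs) F).tau ((toGeo M e he (secLE_zero hs) F).ex x v)
        ((toGeo M e he (secLE_zero hs) F).lg ((toGeo M e he (secLE_zero hs) F).ex x v) x) := by
  have hs0 := secLE_zero hs
  have hr : 0 < ‖v‖ := norm_pos_iff.2 hv
  obtain ⟨r, hrd⟩ : ∃ r : ℝ, r = ‖v‖ := ⟨_, rfl⟩
  rw [← hrd] at hr
  obtain ⟨u, hu⟩ : ∃ u : E n, u = r⁻¹ • v := ⟨_, rfl⟩
  have hun : ‖u‖ = 1 := by
    rw [hu, norm_smul, norm_inv, Real.norm_of_nonneg hr.le, ← hrd, inv_mul_cancel₀ hr.ne']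
  have hvu : v = r • u := by rw [hu, smul_smul, mul_inv_cancel₀ hr.ne', one_smul]
  obtain ⟨R, A, A', B, B', Q, hJA, hJB, hRc, hsym, hR, hA0, hA1, hB0, hB1, hQu, hQA, hQB⟩ :=
    exists_JT F he hs x u hun r
  have hfr := tgh_finrank hun
  have hcast : ((n - 1 : ℕ) : ℝ) = (n : ℝ) - 1 := by
    rw [Nat.cast_sub (by omega), Nat.cast_one]
  have key := jt_bonus (by rw [hfr]; omega) hJA hA0 hA1 hsym hR hRc hr hJB hB0 hB1 ha hb
  rw [hfr, hcast] at key
  -- determinants from `x`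
  have hdA : ∀ t, 0 < t → |(dexF M F e x (t • u)).det| * t ^ (n - 1) = |(A t).det| := by
    intro t ht
    exact det_dexF he F x u hun ht (A t) (Q t) (hQu t) (hQA t)
  -- determinants from `y`
  obtain ⟨y, hy⟩ : ∃ y : E n, y = exF F e x (r • u) := ⟨_, rfl⟩
  obtain ⟨V, hV⟩ : ∃ V : E n, V = velF F e r x u := ⟨_, rfl⟩
  rw [← hy, ← hV] at hQB
  have hVn : ‖-V‖ = 1 := by rw [norm_neg, hV, norm_velF F he, hun]
  have hself : ∀ t : ℝ, dexF M F e y ((r - t) • (-V)) V = Q t u := by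
    intro t
    have h1 := tgh_dexF_self (e := e) F y (-V) (r - t)
    have h2 : velF F e (r - t) y (-V) = - velF F e t x u := by
      have h3 : (-V : E n) = (-1 : ℝ) • V := by simp
      rw [h3, velF_smul, hy, hV, ← velF_add F he]
      have h4 : r + -1 * (r - t) = t := by ring
      rw [h4]
      simp
    rw [h2, map_neg, neg_inj] at h1
    rw [h1, hQu]
  have hdB : ∀ t, 0 < t → |(dexF M F e y (t • (-V))).det| * t ^ (n - 1) = |(B (r - t)).det| := by
    intro t ht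
    have h1 : r - (r - t) = t := by ring
    have h2 := hself (r - t)
    have h3 := hQB (r - t)
    rw [h1] at h2 h3
    refine tgh_det_main hun ht _ (Q (r - t)) (Q r) (B (r - t)) ?_ h3
    rw [hQu r, ← hV]
    exact h2
  have hAr : (A r).det ≠ 0 := by
    rw [← abs_pos, ← hdA r hr]
    exact mul_pos (abs_pos.2 (tgh_dexF_inj he hs0 F x _)) (pow_pos hr _)
  have hBr : (B 0).det ≠ 0 := by
    have h1 := hdB r hr
    rw [sub_self] at h1
    rw [← abs_pos, ← h1]
    exact mul_pos (abs_pos.2 (tgh_dexF_inj he hs0 F y _)) (pow_pos hr _)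
  have htx := tgh_radial he hs0 F x u hun hn hr hdA (jt_log_det (hJA.d1 r) hAr) v hvu
  have hty := tgh_radial he hs0 F y (-V) hVn hn hr (D := fun t => (B (r - t)).det) hdB
    (d := -LinearMap.trace ℝ _ ((B' 0).comp (B 0).inverse).toLinearMap) (by
      have h1 := jt_log_det (hJB.d1 0) hBr
      have h2 : HasDerivAt (fun t : ℝ => r - t) (-1) r := by
        simpa using (hasDerivAt_id r).const_sub r
      have h3 : r - r = 0 := sub_self r
      rw [← h3] at h1
      have h4 := HasDerivAt.comp (h₂ := fun s => Real.log |(B s).det|) r h1 h2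
      rw [h3, mul_neg_one] at h4
      exact h4) (r • (-V)) rfl
  -- the logarithm
  have hex : (toGeo M e he (secLE_zero hs) F).ex x v = y := by
    rw [hy, ← hvu]
    rfl
  have hlg : (toGeo M e he (secLE_zero hs) F).lg y x = r • (-V) := by
    have h1 : (toGeo M e he (secLE_zero hs) F).ex y (r • (-V)) = x := by
      change exF F e y (r • (-V)) = x
      have h2 := exF_add F he r (-r) x u
      rw [← hy, ← hV, add_neg_cancel, zero_smul, exF_zero F] at h2
      rw [smul_neg, ← neg_smul]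
      exact h2
    have h3 := (toGeo M e he (secLE_zero hs) F).lg_ex y (r • (-V))
    rw [h1] at h3
    exact h3
  have e1 : (toGeo M e he (secLE_zero hs) F).tau x v =
      LinearMap.trace ℝ _ ((A' r).comp (A r).inverse).toLinearMap - ((n : ℝ) - 1) * TP.cth r :=
    htx
  have e2 : (toGeo M e he (secLE_zero hs) F).tau y (r • (-V)) =
      -LinearMap.trace ℝ _ ((B' 0).comp (B 0).inverse).toLinearMap - ((n : ℝ) - 1) * TP.cth r :=
    hty
  rw [hex, hlg, e1, e2]
  refine le_trans (le_of_eq ?_) key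
  rw [← hrd]
  have e3 : |((toGeo M e he (secLE_zero hs) F).T x v).det| * r ^ (n - 1) = |(A r).det| := by
    have := hdA r hr
    rw [← hvu] at this
    exact this
  rw [← e3, div_pow]
  have h5 : r ^ (n - 1) ≠ 0 := pow_ne_zero _ hr.ne'
  congr 2
  rw [div_div, mul_comm (r ^ (n - 1))]

/-- the abstract geometry -/
def toGeoH (M : RiemMetric n) (e : Fin n → E n → E n) (he : TriangularFrame M e)
    (hs : SecLE M (-1)) (F : GFlow M.g) (hn : 2 ≤ n) : TP.GeoH n where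
  toGeo := toGeo M e he (secLE_zero hs) F
  monoH := toGeo_monoH he hs F
  bonus := toGeo_bonus he hs F hn

end Vale.Agent.P219.CH
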